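import Mathlib

/-!
# Row 286 (S0533), BASE library, file 0: ABSTRACT KIT (Mathlib only, class free)      (owner helper11; prefix `sk_b_`)

Six independent leaves.  A prover replaces ONLY his `sorry` and puts his helper lemmas (names = theorem name + suffix) immediately above his theorem.
* `sk_b_within_integral`   differentiation under the integral sign WITHIN a convex set           
* `sk_b_sqrt_subst`        `a_k ↦ √(w_k)`: from standard deviations to variances, up to the boundary of the orthant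
* `sk_b_G_split`, `sk_b_ibp_pi`   Gaussian integration by parts (vector valued)
* `sk_b_G_conv`            sum of independent Gaussians
* `sk_b_G_exp_bound`       exponential moments of the sup norm
-/

set_option autoImplicit false

namespace Claimed.Agent.R286

open MeasureTheory ProbabilityTheory

/-- **differentiation under the integral sign within a convex set** (copy of `hasFDerivAt_integral_of_dominated_of_fderiv_le`).
Proof: `hasFDerivWithinAt_iff_tendsto`, `tendsto_integral_filter_of_dominated_convergence` with the bound `2 * bound`,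
`Convex.norm_image_sub_le_of_norm_hasFDerivWithin_le` on `D ∩ ball`. -/
theorem sk_b_within_integral {α : Type} [MeasurableSpace α] {μ : Measure α} {X V : Type} [NormedAddCommGroup X] [NormedSpace ℝ X]
    [NormedAddCommGroup V] [NormedSpace ℝ V] [CompleteSpace V]
    {D : Set X} (hD : Convex ℝ D) {x₀ : X} (hx₀ : x₀ ∈ D) {r : ℝ} (hr : 0 < r) {F : X → α → V} {F' : X → α → X →L[ℝ] V} {bound : α → ℝ}
    (hm : ∀ x ∈ D ∩ Metric.ball x₀ r, AEStronglyMeasurable (F x) μ) (hint : Integrable (F x₀) μ) (hm' : AEStronglyMeasurable (F' x₀) μ)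
    (hb : ∀ᵐ a ∂μ, ∀ x ∈ D ∩ Metric.ball x₀ r, ‖F' x a‖ ≤ bound a) (hbi : Integrable bound μ)
    (hd : ∀ᵐ a ∂μ, ∀ x ∈ D ∩ Metric.ball x₀ r, HasFDerivWithinAt (fun x => F x a) (F' x a) D x) :
    HasFDerivWithinAt (fun x => ∫ a, F x a ∂μ) (∫ a, F' x₀ a ∂μ) D x₀ := by
  classical
  set s : Set X := D ∩ Metric.ball x₀ r with hs
  have hsc : Convex ℝ s := hD.inter (convex_ball x₀ r)
  have hx₀s : x₀ ∈ s := ⟨hx₀, Metric.mem_ball_self hr⟩
  have hsn : s ∈ nhdsWithin x₀ D := Filter.inter_mem self_mem_nhdsWithin (mem_nhdsWithin_of_mem_nhds (Metric.ball_mem_nhds x₀ hr))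
  have nneg : ∀ x : X, 0 ≤ ‖x - x₀‖⁻¹ := fun x => inv_nonneg.mpr (norm_nonneg _)
  -- Lipschitz bound
  have hlip : ∀ᵐ a ∂μ, ∀ x ∈ s, ‖F x a - F x₀ a‖ ≤ bound a * ‖x - x₀‖ := by
    filter_upwards [hb, hd] with a hba hda x hx
    exact Convex.norm_image_sub_le_of_norm_hasFDerivWithin_le (f := fun x => F x a) (f' := fun x => F' x a)
      (fun y hy => (hda y hy).mono Set.inter_subset_left) (fun y hy => hba y hy) hsc hx₀s hx
  have hF'b : ∀ᵐ a ∂μ, ‖F' x₀ a‖ ≤ bound a := hb.mono fun a ha => ha x₀ hx₀s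
  have hF'_int : Integrable (F' x₀) μ := hbi.mono' hm' hF'b
  have hF_int : ∀ x ∈ s, Integrable (F x) μ := by
    intro x hx
    have h1 : ∀ᵐ a ∂μ, ‖F x₀ a - F x a‖ ≤ ‖x - x₀‖ * bound a := by
      filter_upwards [hlip] with a ha
      rw [norm_sub_rev, mul_comm]
      exact ha x hx
    exact integrable_of_norm_sub_le (hm x hx) hint (hbi.const_mul _) h1
  have hEq : ∀ᶠ x in nhdsWithin x₀ D, ‖x - x₀‖⁻¹ * ‖((∫ a, F x a ∂μ) - ∫ a, F x₀ a ∂μ) - (∫ a, F' x₀ a ∂μ) (x - x₀)‖ =
      ‖∫ a, ‖x - x₀‖⁻¹ • (F x a - F x₀ a - F' x₀ a (x - x₀)) ∂μ‖ := by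
    filter_upwards [hsn] with x hx
    rw [← norm_smul_of_nonneg (nneg _), integral_smul, integral_sub,
      integral_sub, ← ContinuousLinearMap.integral_apply hF'_int]
    exacts [hF_int x hx, hint, (hF_int x hx).sub hint, hF'_int.apply_continuousLinearMap _]
  rw [hasFDerivWithinAt_iff_tendsto, Filter.tendsto_congr' hEq, ← tendsto_zero_iff_norm_tendsto_zero, ←
    show (∫ a : α, ‖x₀ - x₀‖⁻¹ • (F x₀ a - F x₀ a - (F' x₀ a) (x₀ - x₀)) ∂μ) = 0 by simp]
  apply tendsto_integral_filter_of_dominated_convergence (bound := fun a => bound a + bound a)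
  · filter_upwards [hsn] with x hx
    apply AEStronglyMeasurable.const_smul
    exact ((hm _ hx).sub (hm _ hx₀s)).sub (hm'.apply_continuousLinearMap _)
  · filter_upwards [hsn] with x hx
    filter_upwards [hlip, hF'b] with a ha ha'
    have hb0 : 0 ≤ bound a := (norm_nonneg _).trans ha'
    have ha1 : ‖F x a - F x₀ a‖ ≤ bound a * ‖x - x₀‖ := ha x hx
    have ha2 : ‖F' x₀ a (x - x₀)‖ ≤ bound a * ‖x - x₀‖ :=
      ((F' x₀ a).le_opNorm _).trans (mul_le_mul_of_nonneg_right ha' (norm_nonneg _))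
    have ha3 : ‖F x a - F x₀ a - F' x₀ a (x - x₀)‖ ≤ (bound a + bound a) * ‖x - x₀‖ := by
      refine (norm_sub_le _ _).trans ?_
      rw [add_mul]
      exact add_le_add ha1 ha2
    rw [norm_smul_of_nonneg (nneg _), ← div_eq_inv_mul]
    exact div_le_of_le_mul₀ (norm_nonneg _) (add_nonneg hb0 hb0) ha3
  · exact hbi.add hbi
  · filter_upwards [hd] with a ha
    have h0 := ha x₀ hx₀s
    suffices Filter.Tendsto (fun x => ‖x - x₀‖⁻¹ • (F x a - F x₀ a - F' x₀ a (x - x₀))) (nhdsWithin x₀ D) (nhds 0) by simpa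
    rw [tendsto_zero_iff_norm_tendsto_zero]
    have : (fun x => ‖x - x₀‖⁻¹ * ‖F x a - F x₀ a - F' x₀ a (x - x₀)‖) = fun x =>
        ‖‖x - x₀‖⁻¹ • (F x a - F x₀ a - F' x₀ a (x - x₀))‖ := by
      ext x
      rw [norm_smul_of_nonneg (nneg _)]
    rwa [hasFDerivWithinAt_iff_tendsto, this] at h0

/-- the estimate along a segment in the variables (point, standard deviations) -/
theorem sk_b_sqrt_subst_seg {ι : Type} [Fintype ι] {X V : Type} [NormedAddCommGroup X] [NormedSpace ℝ X] [NormedAddCommGroup V] [NormedSpace ℝ V]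
    {D : Set X} (hD : Convex ℝ D) {G : X × (ι → ℝ) → V} {L : X × (ι → ℝ) → X →L[ℝ] V} {H : ι → X × (ι → ℝ) → V}
    (hG : ∀ p ∈ D ×ˢ (Set.univ : Set (ι → ℝ)), HasFDerivWithinAt G
      ((L p).comp (ContinuousLinearMap.fst ℝ X (ι → ℝ)) +
        ∑ k, ((ContinuousLinearMap.proj k : (ι → ℝ) →L[ℝ] ℝ).comp (ContinuousLinearMap.snd ℝ X (ι → ℝ))).smulRight (p.2 k • H k p)) (D ×ˢ Set.univ) p)
    {x x' : X} (hx : x ∈ D) (hx' : x' ∈ D) {s₀ s₁ : ι → ℝ} (h₀ : ∀ k, 0 ≤ s₀ k) (h₁ : ∀ k, 0 ≤ s₁ k) {η : ℝ}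
    (hLη : ∀ t ∈ Set.Icc (0 : ℝ) 1, ‖L (x + t • (x' - x), s₀ + t • (s₁ - s₀)) - L (x, s₀)‖ ≤ η)
    (hHη : ∀ k, ∀ t ∈ Set.Icc (0 : ℝ) 1, ‖H k (x + t • (x' - x), s₀ + t • (s₁ - s₀)) - H k (x, s₀)‖ ≤ η) :
    ‖G (x', s₁) - G (x, s₀) - (L (x, s₀) (x' - x) + ∑ k, ((s₁ k ^ 2 - s₀ k ^ 2) / 2) • H k (x, s₀))‖
      ≤ η * ‖x' - x‖ + ∑ k, |s₁ k ^ 2 - s₀ k ^ 2| * η := by
  set γ : ℝ → X × (ι → ℝ) := fun t => (x + t • (x' - x), s₀ + t • (s₁ - s₀)) with hγ
  have hγd : ∀ t, HasDerivAt γ (x' - x, s₁ - s₀) t := by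
    intro t
    have a1 : HasDerivAt (fun t : ℝ => x + t • (x' - x)) (x' - x) t := by
      simpa using ((hasDerivAt_id t).smul_const (x' - x)).const_add x
    have a2 : HasDerivAt (fun t : ℝ => s₀ + t • (s₁ - s₀)) (s₁ - s₀) t := by
      simpa using ((hasDerivAt_id t).smul_const (s₁ - s₀)).const_add s₀
    exact a1.prodMk a2
  have hγE : ∀ t ∈ Set.Icc (0 : ℝ) 1, γ t ∈ D ×ˢ (Set.univ : Set (ι → ℝ)) := fun t ht =>
    ⟨hD.add_smul_sub_mem hx hx' ht, trivial⟩
  have hη : 0 ≤ η := (norm_nonneg _).trans (hLη 0 ⟨le_rfl, zero_le_one⟩)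
  set r : ℝ → V := fun t => G (γ t) - (t • L (x, s₀) (x' - x) +
    ∑ k, (((s₀ k + t * (s₁ k - s₀ k)) ^ 2 - s₀ k ^ 2) / 2) • H k (x, s₀)) with hr
  set r' : ℝ → V := fun t => (L (γ t) - L (x, s₀)) (x' - x) +
    ∑ k, ((s₀ k + t * (s₁ k - s₀ k)) * (s₁ k - s₀ k)) • (H k (γ t) - H k (x, s₀)) with hr'
  have hder : ∀ t ∈ Set.Icc (0 : ℝ) 1, HasDerivWithinAt r (r' t) (Set.Icc (0 : ℝ) 1) t := by
    intro t ht
    have b1 := (hG (γ t) (hγE t ht)).comp_hasDerivWithinAt t (hγd t).hasDerivWithinAt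
      (fun u hu => hγE u hu)
    have b2 : HasDerivAt (fun t : ℝ => t • L (x, s₀) (x' - x)) (L (x, s₀) (x' - x)) t := by
      simpa using (hasDerivAt_id t).smul_const (L (x, s₀) (x' - x))
    have b3 : HasDerivAt (fun t : ℝ => ∑ k, (((s₀ k + t * (s₁ k - s₀ k)) ^ 2 - s₀ k ^ 2) / 2) • H k (x, s₀))
        (∑ k, ((s₀ k + t * (s₁ k - s₀ k)) * (s₁ k - s₀ k)) • H k (x, s₀)) t := by
      refine HasDerivAt.fun_sum fun k _ => ?_
      have c1 : HasDerivAt (fun t : ℝ => ((s₀ k + t * (s₁ k - s₀ k)) ^ 2 - s₀ k ^ 2) / 2)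
          ((s₀ k + t * (s₁ k - s₀ k)) * (s₁ k - s₀ k)) t := by
        have c0 := (((((hasDerivAt_id' t).mul_const (s₁ k - s₀ k)).const_add (s₀ k)).pow 2).sub_const
          (s₀ k ^ 2)).div_const 2
        refine HasDerivAt.congr_deriv c0 ?_
        simp
        ring
      exact c1.smul_const _
    have b4 := b1.sub (b2.add b3).hasDerivWithinAt
    refine HasDerivWithinAt.congr_deriv b4 ?_
    simp only [hr', _root_.add_apply, ContinuousLinearMap.comp_apply, ContinuousLinearMap.coe_fst',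
      _root_.sum_apply, ContinuousLinearMap.smulRight_apply, ContinuousLinearMap.coe_snd',
      ContinuousLinearMap.proj_apply, _root_.sub_apply, smul_sub, Finset.sum_sub_distrib]
    have e : ∀ k, (s₁ - s₀) k • (γ t).2 k • H k (γ t)
        = ((s₀ k + t * (s₁ k - s₀ k)) * (s₁ k - s₀ k)) • H k (γ t) := by
      intro k
      rw [smul_smul]
      congr 1
      simp only [hγ, Pi.add_apply, Pi.smul_apply, Pi.sub_apply, smul_eq_mul]
      ring
    simp only [e]
    abel
  have hbd : ∀ t ∈ Set.Ico (0 : ℝ) 1, ‖r' t‖ ≤ η * ‖x' - x‖ + ∑ k, |s₁ k ^ 2 - s₀ k ^ 2| * η := by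
    intro t ht
    have ht' : t ∈ Set.Icc (0 : ℝ) 1 := ⟨ht.1, ht.2.le⟩
    refine (norm_add_le _ _).trans (add_le_add ?_ ?_)
    · exact ((L (γ t) - L (x, s₀)).le_opNorm _).trans (mul_le_mul_of_nonneg_right (hLη t ht') (norm_nonneg _))
    · refine (norm_sum_le _ _).trans (Finset.sum_le_sum fun k _ => ?_)
      rw [norm_smul, Real.norm_eq_abs]
      refine mul_le_mul ?_ (hHη k t ht') (norm_nonneg _) (abs_nonneg _)
      have e1 : s₁ k ^ 2 - s₀ k ^ 2 = (s₀ k + s₁ k) * (s₁ k - s₀ k) := by ring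
      rw [e1, abs_mul, abs_mul]
      refine mul_le_mul_of_nonneg_right ?_ (abs_nonneg _)
      have e2 : s₀ k + t * (s₁ k - s₀ k) = (1 - t) * s₀ k + t * s₁ k := by ring
      have p1 : 0 ≤ (1 - t) * s₀ k := mul_nonneg (by linarith [ht.2]) (h₀ k)
      have p2 : 0 ≤ t * s₁ k := mul_nonneg ht.1 (h₁ k)
      have p3 : (1 - t) * s₀ k ≤ s₀ k := by nlinarith [h₀ k, ht.1]
      have p4 : t * s₁ k ≤ s₁ k := by nlinarith [h₁ k, ht.2]
      rw [e2, abs_of_nonneg (add_nonneg p1 p2), abs_of_nonneg (add_nonneg (h₀ k) (h₁ k))]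
      linarith
  have hfin := norm_image_sub_le_of_norm_deriv_le_segment_01' hder hbd
  have e1 : r 1 - r 0 = G (x', s₁) - G (x, s₀) - (L (x, s₀) (x' - x) + ∑ k, ((s₁ k ^ 2 - s₀ k ^ 2) / 2) • H k (x, s₀)) := by
    simp only [hr, hγ, one_smul, zero_smul, add_zero, one_mul, zero_mul, add_sub_cancel, sub_self, zero_div,
      Finset.sum_const_zero]
    abel
  rw [← e1]
  exact hfin


/-- **from standard deviations to variances.**  If `∂G/∂a_k = a_k • H_k` with `H_k` continuous, then `(x, w) ↦ G (x, √w)` is differentiable within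
`D × orthant`, with `∂/∂w_k = H_k / 2`, also where some `w_k = 0`.
Proof: for `q = (x', w')` near `(x, w)` put `p₀ = (x, √w)`, `p₁ = (x', √w')`, `γ t = p₀ + t (p₁ - p₀)`,
`R p = G p - L p₀ (p.1 - x) - ∑ k, ((p.2 k ^ 2 - w k) / 2) • H k p₀`; then `d/dt R (γ t) = (L (γ t) - L p₀) (x' - x) + ∑ k, ((γ t).2 k * (√w'_k - √w_k)) • (H k (γ t) - H k p₀)`
and `|(γ t).2 k * (√w'_k - √w_k)| ≤ |w'_k - w_k|`; conclude by `norm_image_sub_le_of_norm_deriv_le_segment_01'`, continuity of `L`, `H k` at `p₀` and of the square root. -/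
theorem sk_b_sqrt_subst {ι : Type} [Fintype ι] {X V : Type} [NormedAddCommGroup X] [NormedSpace ℝ X] [NormedAddCommGroup V] [NormedSpace ℝ V]
    {D : Set X} (hD : Convex ℝ D) {G : X × (ι → ℝ) → V} {L : X × (ι → ℝ) → X →L[ℝ] V} {H : ι → X × (ι → ℝ) → V}
    (hG : ∀ p ∈ D ×ˢ (Set.univ : Set (ι → ℝ)), HasFDerivWithinAt G
      ((L p).comp (ContinuousLinearMap.fst ℝ X (ι → ℝ)) +
        ∑ k, ((ContinuousLinearMap.proj k : (ι → ℝ) →L[ℝ] ℝ).comp (ContinuousLinearMap.snd ℝ X (ι → ℝ))).smulRight (p.2 k • H k p)) (D ×ˢ Set.univ) p)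
    (hL : ContinuousOn L (D ×ˢ Set.univ)) (hH : ∀ k, ContinuousOn (H k) (D ×ˢ Set.univ))
    {x : X} (hx : x ∈ D) {w : ι → ℝ} (hw : ∀ k, 0 ≤ w k) :
    HasFDerivWithinAt (fun q : X × (ι → ℝ) => G (q.1, fun k => Real.sqrt (q.2 k)))
      ((L (x, fun k => Real.sqrt (w k))).comp (ContinuousLinearMap.fst ℝ X (ι → ℝ)) +
        ∑ k, ((ContinuousLinearMap.proj k : (ι → ℝ) →L[ℝ] ℝ).comp (ContinuousLinearMap.snd ℝ X (ι → ℝ))).smulRight ((1 / 2 : ℝ) • H k (x, fun k => Real.sqrt (w k))))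
      (D ×ˢ {w : ι → ℝ | ∀ k, 0 ≤ w k}) (x, w) := by
  set s₀ : ι → ℝ := fun k => Real.sqrt (w k) with hs₀
  set p₀ : X × (ι → ℝ) := (x, s₀) with hp₀
  have hp₀E : p₀ ∈ D ×ˢ (Set.univ : Set (ι → ℝ)) := ⟨hx, trivial⟩
  rw [hasFDerivWithinAt_iff_isLittleO, Asymptotics.isLittleO_iff]
  intro c hc
  set η : ℝ := c / (1 + Fintype.card ι) with hη
  have hηpos : 0 < η := by positivity
  have hLc : ∀ᶠ p in nhdsWithin p₀ (D ×ˢ (Set.univ : Set (ι → ℝ))), ‖L p - L p₀‖ ≤ η := by
    have h1 := Metric.tendsto_nhds.1 (hL p₀ hp₀E) η hηpos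
    filter_upwards [h1] with p hp
    rw [← dist_eq_norm]; exact hp.le
  have hHc : ∀ᶠ p in nhdsWithin p₀ (D ×ˢ (Set.univ : Set (ι → ℝ))), ∀ k, ‖H k p - H k p₀‖ ≤ η := by
    rw [Filter.eventually_all]
    intro k
    have h1 := Metric.tendsto_nhds.1 (hH k p₀ hp₀E) η hηpos
    filter_upwards [h1] with p hp
    rw [← dist_eq_norm]; exact hp.le
  obtain ⟨δ, hδ, hball⟩ := Metric.mem_nhdsWithin_iff.1 (hLc.and hHc)
  have hcont : Continuous (fun q : X × (ι → ℝ) => ((q.1, fun k => Real.sqrt (q.2 k)) : X × (ι → ℝ))) := by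
    fun_prop
  have hnear : ∀ᶠ q in nhdsWithin (x, w) (D ×ˢ {w : ι → ℝ | ∀ k, 0 ≤ w k}),
      ((q.1, fun k => Real.sqrt (q.2 k)) : X × (ι → ℝ)) ∈ Metric.ball p₀ δ := by
    have h1 : Filter.Tendsto (fun q : X × (ι → ℝ) => ((q.1, fun k => Real.sqrt (q.2 k)) : X × (ι → ℝ)))
        (nhds (x, w)) (nhds p₀) := hcont.tendsto (x, w)
    exact (h1.eventually (Metric.ball_mem_nhds p₀ hδ)).filter_mono nhdsWithin_le_nhds
  filter_upwards [hnear, self_mem_nhdsWithin] with q hq hqD
  obtain ⟨x', w'⟩ := q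
  set s₁ : ι → ℝ := fun k => Real.sqrt (w' k) with hs₁
  have hx' : x' ∈ D := hqD.1
  have hw' : ∀ k, 0 ≤ w' k := hqD.2
  have hmem : ∀ t ∈ Set.Icc (0 : ℝ) 1, ((x + t • (x' - x), s₀ + t • (s₁ - s₀)) : X × (ι → ℝ)) ∈
      Metric.ball p₀ δ ∩ D ×ˢ (Set.univ : Set (ι → ℝ)) := by
    intro t ht
    refine ⟨?_, hD.add_smul_sub_mem hx hx' ht, trivial⟩
    exact (convex_ball p₀ δ).add_smul_sub_mem (Metric.mem_ball_self hδ) hq ht
  have hseg := sk_b_sqrt_subst_seg hD hG hx hx' (s₀ := s₀) (s₁ := s₁) (fun k => Real.sqrt_nonneg _)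
    (fun k => Real.sqrt_nonneg _) (η := η) (fun t ht => (hball (hmem t ht)).1)
    (fun k t ht => (hball (hmem t ht)).2 k)
  have hsq0 : ∀ k, s₀ k ^ 2 = w k := fun k => Real.sq_sqrt (hw k)
  have hsq1 : ∀ k, s₁ k ^ 2 = w' k := fun k => Real.sq_sqrt (hw' k)
  simp only [hsq0, hsq1] at hseg
  have e : ((L p₀).comp (ContinuousLinearMap.fst ℝ X (ι → ℝ)) +
        ∑ k, ((ContinuousLinearMap.proj k : (ι → ℝ) →L[ℝ] ℝ).comp (ContinuousLinearMap.snd ℝ X (ι → ℝ))).smulRight
          ((1 / 2 : ℝ) • H k p₀)) ((x', w') - (x, w))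
      = L p₀ (x' - x) + ∑ k, ((w' k - w k) / 2) • H k p₀ := by
    simp only [_root_.add_apply, ContinuousLinearMap.comp_apply, ContinuousLinearMap.coe_fst',
      _root_.sum_apply, ContinuousLinearMap.smulRight_apply, ContinuousLinearMap.coe_snd',
      ContinuousLinearMap.proj_apply, Prod.mk_sub_mk, Pi.sub_apply, smul_smul]
    congr 1
    refine Finset.sum_congr rfl fun k _ => ?_
    congr 1
    ring
  rw [e]
  have n1 : ‖x' - x‖ ≤ ‖((x', w') : X × (ι → ℝ)) - (x, w)‖ := norm_fst_le (((x', w') : X × (ι → ℝ)) - (x, w))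
  have n2 : ∀ k, |w' k - w k| ≤ ‖((x', w') : X × (ι → ℝ)) - (x, w)‖ := fun k =>
    (norm_le_pi_norm (w' - w) k).trans (norm_snd_le (((x', w') : X × (ι → ℝ)) - (x, w)))
  calc ‖G (x', s₁) - G (x, s₀) - (L p₀ (x' - x) + ∑ k, ((w' k - w k) / 2) • H k p₀)‖
      ≤ η * ‖x' - x‖ + ∑ k, |w' k - w k| * η := hseg
    _ ≤ η * ‖((x', w') : X × (ι → ℝ)) - (x, w)‖ + ∑ _k : ι, ‖((x', w') : X × (ι → ℝ)) - (x, w)‖ * η :=
        add_le_add (mul_le_mul_of_nonneg_left n1 hηpos.le)
          (Finset.sum_le_sum fun k _ => mul_le_mul_of_nonneg_right (n2 k) hηpos.le)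
    _ = c * ‖((x', w') : X × (ι → ℝ)) - (x, w)‖ := by
        rw [Finset.sum_const, Finset.card_univ, nsmul_eq_mul, hη]
        field_simp

/-- resampling one coordinate: the law -/
theorem sk_b_G_split_law {ι : Type} [Fintype ι] [DecidableEq ι] (k : ι) :
    ((Measure.pi fun _ : ι => gaussianReal 0 1).prod (gaussianReal 0 1)).map
        (fun p : (ι → ℝ) × ℝ => Function.update p.1 k p.2)
      = Measure.pi fun _ : ι => gaussianReal 0 1 := by
  symm
  refine Measure.pi_eq fun s hs => ?_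
  rw [Measure.map_apply measurable_update' (MeasurableSet.univ_pi hs)]
  have hpre : (fun p : (ι → ℝ) × ℝ => Function.update p.1 k p.2) ⁻¹' Set.pi Set.univ s
      = (Set.pi Set.univ (Function.update s k Set.univ)) ×ˢ (s k) := by
    ext ⟨g, x⟩
    simp only [Set.mem_preimage, Set.mem_pi, Set.mem_univ, true_imp_iff, Set.mem_prod]
    constructor
    · intro h
      refine ⟨fun i => ?_, by simpa using h k⟩
      by_cases hi : i = k
      · subst hi; simp
      · have := h i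
        simpa [Function.update_of_ne hi] using this
    · rintro ⟨h1, h2⟩ i
      by_cases hi : i = k
      · subst hi; simpa using h2
      · have := h1 i
        simpa [Function.update_of_ne hi] using this
  rw [hpre, Measure.prod_prod, Measure.pi_pi,
    ← Finset.mul_prod_erase Finset.univ _ (Finset.mem_univ k),
    ← Finset.mul_prod_erase Finset.univ (fun i => gaussianReal 0 1 (s i)) (Finset.mem_univ k)]
  have h1 : ∏ i ∈ Finset.univ.erase k, (gaussianReal 0 1) (Function.update s k Set.univ i)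
      = ∏ i ∈ Finset.univ.erase k, (gaussianReal 0 1) (s i) :=
    Finset.prod_congr rfl fun i hi => by rw [Function.update_of_ne (Finset.ne_of_mem_erase hi)]
  rw [h1]
  simp [mul_comm]

/-- resampling one coordinate -/
theorem sk_b_G_split {ι : Type} [Fintype ι] [DecidableEq ι] {V : Type} [NormedAddCommGroup V] [NormedSpace ℝ V] (k : ι) {F : (ι → ℝ) → V}
    (hF : Integrable F (Measure.pi fun _ : ι => gaussianReal 0 1)) :
    ∫ g, F g ∂(Measure.pi fun _ : ι => gaussianReal 0 1)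
      = ∫ g, ∫ x, F (Function.update g k x) ∂gaussianReal 0 1 ∂(Measure.pi fun _ : ι => gaussianReal 0 1) := by
  have hlaw := sk_b_G_split_law (ι := ι) k
  have hF' : Integrable F (((Measure.pi fun _ : ι => gaussianReal 0 1).prod (gaussianReal 0 1)).map
      (fun p : (ι → ℝ) × ℝ => Function.update p.1 k p.2)) := by rw [hlaw]; exact hF
  have hint : Integrable (fun p : (ι → ℝ) × ℝ => F (Function.update p.1 k p.2))
      ((Measure.pi fun _ : ι => gaussianReal 0 1).prod (gaussianReal 0 1)) :=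
    (integrable_map_measure hF'.aestronglyMeasurable measurable_update'.aemeasurable).1 hF'
  calc ∫ g, F g ∂(Measure.pi fun _ : ι => gaussianReal 0 1)
      = ∫ g, F g ∂(((Measure.pi fun _ : ι => gaussianReal 0 1).prod (gaussianReal 0 1)).map
          (fun p : (ι → ℝ) × ℝ => Function.update p.1 k p.2)) := by rw [hlaw]
    _ = ∫ p, F (Function.update p.1 k p.2) ∂((Measure.pi fun _ : ι => gaussianReal 0 1).prod (gaussianReal 0 1)) :=
        integral_map measurable_update'.aemeasurable hF'.aestronglyMeasurable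
    _ = _ := integral_prod _ hint

/-- one coordinate: the law of `a x + b y` -/
theorem sk_b_G_conv_one {a b c : ℝ} (h : a ^ 2 + b ^ 2 = c ^ 2) :
    ((gaussianReal 0 1).prod (gaussianReal 0 1)).map (fun q : ℝ × ℝ => a * q.1 + b * q.2)
      = (gaussianReal 0 1).map (fun x => c * x) := by
  have h1 : (fun q : ℝ × ℝ => a * q.1 + b * q.2) =
      (fun q : ℝ × ℝ => q.1 + q.2) ∘ Prod.map (fun x => a * x) (fun x => b * x) := by
    ext q; simp
  rw [h1, ← Measure.map_map (by fun_prop) (by fun_prop),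
    ← Measure.map_prod_map _ _ (by fun_prop) (by fun_prop)]
  change ((gaussianReal 0 1).map (a * ·)) ∗ ((gaussianReal 0 1).map (b * ·)) = (gaussianReal 0 1).map (c * ·)
  rw [gaussianReal_map_const_mul, gaussianReal_map_const_mul, gaussianReal_map_const_mul,
    gaussianReal_conv_gaussianReal]
  congr 1
  · simp
  · ext
    simp [h]

/-- the law of `a g + b g'` -/
theorem sk_b_G_conv_law {ι : Type} [Fintype ι] {a b c : ι → ℝ} (h : ∀ k, a k ^ 2 + b k ^ 2 = c k ^ 2) :
    ((Measure.pi fun _ : ι => gaussianReal 0 1).prod (Measure.pi fun _ : ι => gaussianReal 0 1)).map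
        (fun p : (ι → ℝ) × (ι → ℝ) => a * p.1 + b * p.2)
      = (Measure.pi fun _ : ι => gaussianReal 0 1).map (fun g => c * g) := by
  have e := (measurePreserving_arrowProdEquivProdArrow ℝ ℝ ι (fun _ => gaussianReal 0 1)
    (fun _ => gaussianReal 0 1)).map_eq
  rw [← e, Measure.map_map (by fun_prop) (MeasurableEquiv.measurable _)]
  have h1 : (fun p : (ι → ℝ) × (ι → ℝ) => a * p.1 + b * p.2) ∘ (MeasurableEquiv.arrowProdEquivProdArrow ℝ ℝ ι)
      = fun (x : ι → ℝ × ℝ) i => (fun q : ℝ × ℝ => a i * q.1 + b i * q.2) (x i) := by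
    ext x i
    simp [MeasurableEquiv.arrowProdEquivProdArrow, Equiv.arrowProdEquivProdArrow]
  have h2 : (fun g : ι → ℝ => c * g) = fun (x : ι → ℝ) i => (fun y : ℝ => c i * y) (x i) := by
    ext x i
    simp
  rw [h1, h2]
  have : ∀ i, IsProbabilityMeasure (((gaussianReal 0 1).prod (gaussianReal 0 1)).map
      (fun q : ℝ × ℝ => a i * q.1 + b i * q.2)) := fun i =>
    Measure.isProbabilityMeasure_map (by fun_prop)
  have : ∀ i, IsProbabilityMeasure ((gaussianReal 0 1).map (fun y : ℝ => c i * y)) := fun i =>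
    Measure.isProbabilityMeasure_map (by fun_prop)
  have p1 := Measure.pi_map_pi (μ := fun _ : ι => (gaussianReal 0 1).prod (gaussianReal 0 1))
    (f := fun i (q : ℝ × ℝ) => a i * q.1 + b i * q.2) (fun i => by fun_prop)
  have p2 := Measure.pi_map_pi (μ := fun _ : ι => gaussianReal 0 1)
    (f := fun i (y : ℝ) => c i * y) (fun i => by fun_prop)
  rw [p1, p2]
  congr 1
  ext1 i
  exact sk_b_G_conv_one (h i)

/-- exponential integrability of the sup norm -/
theorem sk_b_G_conv_int {ι : Type} [Fintype ι] (b : ℝ) :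
    Integrable (fun g : ι → ℝ => Real.exp (b * ‖g‖)) (Measure.pi fun _ : ι => gaussianReal 0 1) := by
  have hI : Integrable (fun g : ι → ℝ => 1 + ∑ k, (Real.exp (|b| * g k) + Real.exp (-|b| * g k)))
      (Measure.pi fun _ : ι => gaussianReal 0 1) := by
    refine (integrable_const _).add (integrable_finsetSum _ fun k _ => ?_)
    exact (integrable_comp_eval (μ := fun _ : ι => gaussianReal 0 1) (i := k)
        (integrable_exp_mul_gaussianReal (μ := 0) (v := 1) |b|)).add
      (integrable_comp_eval (μ := fun _ : ι => gaussianReal 0 1) (i := k)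
        (integrable_exp_mul_gaussianReal (μ := 0) (v := 1) (-|b|)))
  refine hI.mono' (by fun_prop) (ae_of_all _ fun g => ?_)
  rw [Real.norm_of_nonneg (Real.exp_pos _).le]
  have hsum : ∀ k, Real.exp (|b| * |g k|) ≤ ∑ k, (Real.exp (|b| * g k) + Real.exp (-|b| * g k)) := by
    intro k
    refine le_trans ?_ (Finset.single_le_sum (f := fun k => Real.exp (|b| * g k) + Real.exp (-|b| * g k))
      (fun i _ => by positivity) (Finset.mem_univ k))
    rcases abs_cases (g k) with ⟨h, _⟩ | ⟨h, _⟩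
    · rw [h]; linarith [Real.exp_pos (-|b| * g k)]
    · rw [h]
      have : |b| * -g k = -|b| * g k := by ring
      rw [this]; linarith [Real.exp_pos (|b| * g k)]
  have h1 : Real.exp (b * ‖g‖) ≤ Real.exp (|b| * ‖g‖) :=
    Real.exp_le_exp.2 (mul_le_mul_of_nonneg_right (le_abs_self b) (norm_nonneg g))
  refine h1.trans ?_
  rcases isEmpty_or_nonempty ι with hι | hι
  · have : ‖g‖ = 0 := by
      rw [Subsingleton.elim g 0]; simp
    simp [this]
  · obtain ⟨k, hk⟩ : ∃ k, ‖g‖ = |g k| := by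
      obtain ⟨k, _, hk⟩ := Finset.exists_mem_eq_sup' (Finset.univ_nonempty (α := ι)) (fun k => ‖g k‖₊)
      refine ⟨k, ?_⟩
      have : ‖g‖₊ = ‖g k‖₊ := by
        rw [Pi.nnnorm_def, ← hk, Finset.sup'_eq_sup]
      have h2 := congrArg (fun x : NNReal => (x : ℝ)) this
      simpa using h2
    rw [hk]
    linarith [hsum k]

/-- **sum of two independent Gaussian vectors with independent coordinates** -/
theorem sk_b_G_conv {ι : Type} [Fintype ι] {V : Type} [NormedAddCommGroup V] [NormedSpace ℝ V] [CompleteSpace V] {f : (ι → ℝ) → V}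
    (hc : Continuous f) {A B : ℝ} (h : ∀ y, ‖f y‖ ≤ A * Real.exp (B * ‖y‖)) {v w : ι → ℝ} (hv : ∀ k, 0 ≤ v k) (hw : ∀ k, 0 ≤ w k) :
    ∫ g, ∫ g', f ((fun k => Real.sqrt (v k)) * g + (fun k => Real.sqrt (w k)) * g') ∂(Measure.pi fun _ : ι => gaussianReal 0 1) ∂(Measure.pi fun _ : ι => gaussianReal 0 1)
      = ∫ g, f ((fun k => Real.sqrt (v k + w k)) * g) ∂(Measure.pi fun _ : ι => gaussianReal 0 1) := by
  set γ : Measure (ι → ℝ) := Measure.pi fun _ : ι => gaussianReal 0 1 with hγ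
  set a : ι → ℝ := fun k => Real.sqrt (v k) with ha
  set b : ι → ℝ := fun k => Real.sqrt (w k) with hb
  set c : ι → ℝ := fun k => Real.sqrt (v k + w k) with hcdef
  have habc : ∀ k, a k ^ 2 + b k ^ 2 = c k ^ 2 := by
    intro k
    simp only [ha, hb, hcdef]
    rw [Real.sq_sqrt (hv k), Real.sq_sqrt (hw k), Real.sq_sqrt (add_nonneg (hv k) (hw k))]
  have hlaw := sk_b_G_conv_law habc
  rw [← hγ] at hlaw
  have hA : 0 ≤ A := by
    have := (norm_nonneg _).trans (h 0)
    simpa using this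
  have hfm : AEStronglyMeasurable f (γ.map fun g => c * g) := hc.aestronglyMeasurable
  have hint1 : Integrable (fun g => f (c * g)) γ := by
    have hI := (sk_b_G_conv_int (ι := ι) (|B| * ‖c‖)).const_mul A
    refine hI.mono' (hc.comp (by fun_prop)).aestronglyMeasurable (ae_of_all _ fun g => ?_)
    refine (h _).trans (mul_le_mul_of_nonneg_left (Real.exp_le_exp.2 ?_) hA)
    calc B * ‖c * g‖ ≤ |B| * ‖c * g‖ := mul_le_mul_of_nonneg_right (le_abs_self B) (norm_nonneg _)
      _ ≤ |B| * (‖c‖ * ‖g‖) := mul_le_mul_of_nonneg_left (norm_mul_le _ _) (abs_nonneg B)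
      _ = |B| * ‖c‖ * ‖g‖ := by ring
  have hint2 : Integrable f (γ.map fun g => c * g) :=
    (integrable_map_measure hfm (by fun_prop)).2 hint1
  have hint3 : Integrable (fun p : (ι → ℝ) × (ι → ℝ) => f (a * p.1 + b * p.2)) (γ.prod γ) := by
    rw [← hlaw] at hint2
    exact (integrable_map_measure (hc.aestronglyMeasurable) (by fun_prop)).1 hint2
  calc ∫ g, ∫ g', f (a * g + b * g') ∂γ ∂γ
      = ∫ p, f (a * p.1 + b * p.2) ∂(γ.prod γ) := (integral_prod _ hint3).symm
    _ = ∫ y, f y ∂((γ.prod γ).map fun p : (ι → ℝ) × (ι → ℝ) => a * p.1 + b * p.2) :=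
        (integral_map (by fun_prop) hc.aestronglyMeasurable).symm
    _ = ∫ y, f y ∂(γ.map fun g => c * g) := by rw [hlaw]
    _ = ∫ g, f (c * g) ∂γ := integral_map (by fun_prop) hc.aestronglyMeasurable

theorem sk_b_ibp_pi_int1 (c : ℝ) : Integrable (fun x : ℝ => Real.exp (c * |x|)) (gaussianReal 0 1) := by
  refine ((integrable_exp_mul_gaussianReal (μ := 0) (v := 1) c).add
    (integrable_exp_mul_gaussianReal (μ := 0) (v := 1) (-c))).mono' (by fun_prop) (ae_of_all _ fun x => ?_)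
  rw [Real.norm_of_nonneg (Real.exp_pos _).le]
  rcases abs_cases x with ⟨h, _⟩ | ⟨h, _⟩
  · simp only [h, Pi.add_apply]; linarith [Real.exp_pos (-c * x)]
  · simp only [h, Pi.add_apply]
    have : c * -x = -c * x := by ring
    rw [this]; linarith [Real.exp_pos (c * x)]

theorem sk_b_ibp_pi_dens {V : Type} [NormedAddCommGroup V] [NormedSpace ℝ V] {f : ℝ → V}
    (hf : Integrable f (gaussianReal 0 1)) : Integrable (fun x => gaussianPDFReal 0 1 x • f x) volume := by
  rw [gaussianReal_of_var_ne_zero _ one_ne_zero] at hf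
  have := (integrable_withDensity_iff_integrable_smul' (measurable_gaussianPDF 0 1)
    (ae_of_all _ fun _ => gaussianPDF_lt_top)).1 hf
  simpa [toReal_gaussianPDF] using this

theorem sk_b_ibp_pi_pdf (x : ℝ) : HasDerivAt (gaussianPDFReal 0 1) (-x * gaussianPDFReal 0 1 x) x := by
  have h1 : gaussianPDFReal 0 1 = fun x : ℝ => (Real.sqrt (2 * Real.pi * (1 : NNReal)))⁻¹ * Real.exp (-(x - 0) ^ 2 / (2 * (1 : NNReal))) := by
    funext y; rw [gaussianPDFReal]
  rw [h1]
  have h2 : HasDerivAt (fun y : ℝ => -(y - 0) ^ 2 / (2 * ((1 : NNReal) : ℝ))) (-x) x := by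
    have h := (((hasDerivAt_id' x).sub_const 0).pow 2).neg.div_const (2 * ((1 : NNReal) : ℝ))
    refine HasDerivAt.congr_deriv h ?_
    simp
    ring
  have h3 := (h2.exp).const_mul ((Real.sqrt (2 * Real.pi * (1 : NNReal)))⁻¹)
  refine HasDerivAt.congr_deriv h3 ?_
  ring

/-- one dimensional Gaussian integration by parts, vector valued -/
theorem sk_b_ibp_pi_one {V : Type} [NormedAddCommGroup V] [NormedSpace ℝ V] {u u' : ℝ → V}
    (hu : ∀ x, HasDerivAt u (u' x) x) (hcu' : Continuous u') {A B : ℝ}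
    (h : ∀ x, ‖u x‖ ≤ A * Real.exp (B * |x|)) (h' : ∀ x, ‖u' x‖ ≤ A * Real.exp (B * |x|)) :
    ∫ x, x • u x ∂gaussianReal 0 1 = ∫ x, u' x ∂gaussianReal 0 1 := by
  have hcu : Continuous u := continuous_iff_continuousAt.2 fun x => (hu x).continuousAt
  have hA : 0 ≤ A := by
    have := (norm_nonneg _).trans (h 0)
    simpa using this
  have i1 : Integrable u (gaussianReal 0 1) :=
    ((sk_b_ibp_pi_int1 B).const_mul A).mono' hcu.aestronglyMeasurable (ae_of_all _ h)
  have i2 : Integrable u' (gaussianReal 0 1) :=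
    ((sk_b_ibp_pi_int1 B).const_mul A).mono' hcu'.aestronglyMeasurable (ae_of_all _ h')
  have i3 : Integrable (fun x => x • u x) (gaussianReal 0 1) := by
    refine ((sk_b_ibp_pi_int1 (B + 1)).const_mul A).mono' (continuous_id.smul hcu).aestronglyMeasurable
      (ae_of_all _ fun x => ?_)
    rw [norm_smul, Real.norm_eq_abs]
    have e1 : |x| ≤ Real.exp |x| := by linarith [Real.add_one_le_exp |x|]
    calc |x| * ‖u x‖ ≤ Real.exp |x| * (A * Real.exp (B * |x|)) :=
          mul_le_mul e1 (h x) (norm_nonneg _) (Real.exp_pos _).le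
      _ = A * Real.exp ((B + 1) * |x|) := by
          rw [add_mul, one_mul, Real.exp_add]; ring
  rw [integral_gaussianReal_eq_integral_smul one_ne_zero, integral_gaussianReal_eq_integral_smul one_ne_zero]
  have key := integral_bilinear_hasDerivAt_right_eq_neg_left_of_integrable
    (L := ContinuousLinearMap.lsmul ℝ ℝ) (u := gaussianPDFReal 0 1) (v := u)
    (u' := fun x => -x * gaussianPDFReal 0 1 x) (v' := u')
    (fun x _ => sk_b_ibp_pi_pdf x) (fun x _ => hu x)
    (by simpa using sk_b_ibp_pi_dens i2)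
    (by
      have := (sk_b_ibp_pi_dens i3).neg
      refine this.congr (ae_of_all _ fun x => ?_)
      simp [smul_smul, mul_comm])
    (by simpa using sk_b_ibp_pi_dens i1)
  simp only [ContinuousLinearMap.lsmul_apply] at key
  rw [key, ← integral_neg]
  refine integral_congr_ae (ae_of_all _ fun x => ?_)
  simp [smul_smul, mul_comm]

theorem sk_b_ibp_pi_upd {ι : Type} [Fintype ι] [DecidableEq ι] (g : ι → ℝ) (k : ι) (x : ℝ) :
    ‖Function.update g k x‖ ≤ ‖g‖ + |x| := by
  refine (pi_norm_le_iff_of_nonneg (add_nonneg (norm_nonneg _) (abs_nonneg _))).2 fun i => ?_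
  by_cases hi : i = k
  · subst hi
    simp only [Function.update_self, Real.norm_eq_abs]
    linarith [norm_nonneg g]
  · rw [Function.update_of_ne hi]
    linarith [norm_le_pi_norm g i, abs_nonneg x]

/-- **Gaussian integration by parts**, vector valued; `ψ'` = the derivative of `ψ` in the direction of the coordinate `k` -/
theorem sk_b_ibp_pi {ι : Type} [Fintype ι] [DecidableEq ι] {V : Type} [NormedAddCommGroup V] [NormedSpace ℝ V] [CompleteSpace V] (k : ι) {ψ ψ' : (ι → ℝ) → V}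
    (hc : Continuous ψ) (hc' : Continuous ψ') (hd : ∀ g, HasDerivAt (fun t : ℝ => ψ (g + t • Pi.single k (1 : ℝ))) (ψ' g) 0)
    {A B : ℝ} (h : ∀ g, ‖ψ g‖ ≤ A * Real.exp (B * ‖g‖)) (h' : ∀ g, ‖ψ' g‖ ≤ A * Real.exp (B * ‖g‖)) :
    ∫ g, g k • ψ g ∂(Measure.pi fun _ : ι => gaussianReal 0 1) = ∫ g, ψ' g ∂(Measure.pi fun _ : ι => gaussianReal 0 1) := by
  have hA : 0 ≤ A := by
    have := (norm_nonneg _).trans (h 0)
    simpa using this
  have i2 : Integrable ψ' (Measure.pi fun _ : ι => gaussianReal 0 1) :=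
    ((sk_b_G_conv_int (ι := ι) B).const_mul A).mono' hc'.aestronglyMeasurable (ae_of_all _ h')
  have i3 : Integrable (fun g : ι → ℝ => g k • ψ g) (Measure.pi fun _ : ι => gaussianReal 0 1) := by
    refine ((sk_b_G_conv_int (ι := ι) (B + 1)).const_mul A).mono'
      ((continuous_apply k).smul hc).aestronglyMeasurable (ae_of_all _ fun g => ?_)
    rw [norm_smul]
    have e1 : ‖g k‖ ≤ Real.exp ‖g‖ := (norm_le_pi_norm g k).trans (by linarith [Real.add_one_le_exp ‖g‖])
    calc ‖g k‖ * ‖ψ g‖ ≤ Real.exp ‖g‖ * (A * Real.exp (B * ‖g‖)) :=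
          mul_le_mul e1 (h g) (norm_nonneg _) (Real.exp_pos _).le
      _ = A * Real.exp ((B + 1) * ‖g‖) := by
          rw [add_mul, one_mul, Real.exp_add]; ring
  rw [sk_b_G_split k i3, sk_b_G_split k i2]
  refine integral_congr_ae (ae_of_all _ fun g => ?_)
  simp only [Function.update_self]
  have hbd : ∀ (φ : (ι → ℝ) → V), (∀ g, ‖φ g‖ ≤ A * Real.exp (B * ‖g‖)) → ∀ x : ℝ,
      ‖φ (Function.update g k x)‖ ≤ (A * Real.exp (|B| * ‖g‖)) * Real.exp (|B| * |x|) := by
    intro φ hφ x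
    refine (hφ _).trans ?_
    rw [mul_assoc, ← Real.exp_add, ← mul_add]
    refine mul_le_mul_of_nonneg_left (Real.exp_le_exp.2 ?_) hA
    calc B * ‖Function.update g k x‖ ≤ |B| * ‖Function.update g k x‖ :=
          mul_le_mul_of_nonneg_right (le_abs_self B) (norm_nonneg _)
      _ ≤ |B| * (‖g‖ + |x|) := mul_le_mul_of_nonneg_left (sk_b_ibp_pi_upd g k x) (abs_nonneg B)
  refine sk_b_ibp_pi_one (u := fun x => ψ (Function.update g k x)) (u' := fun x => ψ' (Function.update g k x))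
    (fun x => ?_) (hc'.comp (continuous_const.update k continuous_id)) (hbd ψ h) (hbd ψ' h')
  have h0 := hd (Function.update g k x)
  have h1 : HasDerivAt (fun t : ℝ => ψ (Function.update g k x + t • Pi.single k (1 : ℝ)))
      (ψ' (Function.update g k x)) (x - x) := by rw [sub_self]; exact h0
  have h2 := HasDerivAt.comp_sub_const x x h1
  convert h2 using 2 with y
  congr 1
  ext i
  by_cases hi : i = k
  · subst hi; simp
  · simp [Function.update_of_ne hi, Pi.single_eq_of_ne hi]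

/-- exponential moments of the sup norm -/
theorem sk_b_G_exp_bound {ι : Type} [Fintype ι] {b : ℝ} (hb : 0 ≤ b) :
    ∫ g, Real.exp (b * ‖g‖) ∂(Measure.pi fun _ : ι => gaussianReal 0 1) ≤ 2 ^ Fintype.card ι * Real.exp (Fintype.card ι * b ^ 2 / 2) := by
  have hmgf : ∀ t : ℝ, ∫ x, Real.exp (t * x) ∂gaussianReal 0 1 = Real.exp (t ^ 2 / 2) := by
    intro t
    have := congrFun (mgf_id_gaussianReal (μ := 0) (v := 1)) t
    simpa [mgf] using this
  have h1 : ∫ x, Real.exp (b * |x|) ∂gaussianReal 0 1 ≤ 2 * Real.exp (b ^ 2 / 2) := by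
    calc ∫ x, Real.exp (b * |x|) ∂gaussianReal 0 1
        ≤ ∫ x, (Real.exp (b * x) + Real.exp (-b * x)) ∂gaussianReal 0 1 := by
          refine integral_mono_of_nonneg (ae_of_all _ fun x => (Real.exp_pos _).le)
            ((integrable_exp_mul_gaussianReal b).add (integrable_exp_mul_gaussianReal (-b)))
            (ae_of_all _ fun x => ?_)
          rcases abs_cases x with ⟨h, _⟩ | ⟨h, _⟩
          · simp only [h]; linarith [Real.exp_pos (-b * x)]
          · simp only [h]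
            have : b * -x = -b * x := by ring
            rw [this]; linarith [Real.exp_pos (b * x)]
      _ = 2 * Real.exp (b ^ 2 / 2) := by
          rw [integral_add (integrable_exp_mul_gaussianReal b) (integrable_exp_mul_gaussianReal (-b)),
            hmgf, hmgf]
          ring_nf
  have hprod : ∫ g : ι → ℝ, ∏ k, Real.exp (b * |g k|) ∂(Measure.pi fun _ : ι => gaussianReal 0 1)
      = ∏ _k : ι, ∫ x, Real.exp (b * |x|) ∂gaussianReal 0 1 :=
    integral_fintype_prod_eq_prod (fun _ x => Real.exp (b * |x|))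
  have hint1 : Integrable (fun x : ℝ => Real.exp (b * |x|)) (gaussianReal 0 1) := by
    refine ((integrable_exp_mul_gaussianReal (μ := 0) (v := 1) b).add
      (integrable_exp_mul_gaussianReal (μ := 0) (v := 1) (-b))).mono' (by fun_prop) (ae_of_all _ fun x => ?_)
    rw [Real.norm_of_nonneg (Real.exp_pos _).le]
    rcases abs_cases x with ⟨h, _⟩ | ⟨h, _⟩
    · simp only [h, Pi.add_apply]; linarith [Real.exp_pos (-b * x)]
    · simp only [h, Pi.add_apply]
      have : b * -x = -b * x := by ring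
      rw [this]; linarith [Real.exp_pos (b * x)]
  have hint : Integrable (fun g : ι → ℝ => ∏ k, Real.exp (b * |g k|)) (Measure.pi fun _ : ι => gaussianReal 0 1) :=
    Integrable.fintype_prod (f := fun _ x => Real.exp (b * |x|)) fun _ => hint1
  calc ∫ g, Real.exp (b * ‖g‖) ∂(Measure.pi fun _ : ι => gaussianReal 0 1)
      ≤ ∫ g : ι → ℝ, ∏ k, Real.exp (b * |g k|) ∂(Measure.pi fun _ : ι => gaussianReal 0 1) := by
        refine integral_mono_of_nonneg (ae_of_all _ fun g => (Real.exp_pos _).le) hint (ae_of_all _ fun g => ?_)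
        simp only
        rw [← Real.exp_sum]
        refine Real.exp_le_exp.2 ?_
        rw [← Finset.mul_sum]
        refine mul_le_mul_of_nonneg_left ?_ hb
        refine (pi_norm_le_iff_of_nonneg (Finset.sum_nonneg fun _ _ => abs_nonneg _)).2 fun k => ?_
        exact Finset.single_le_sum (f := fun k => |g k|) (fun _ _ => abs_nonneg _) (Finset.mem_univ k)
    _ = ∏ _k : ι, ∫ x, Real.exp (b * |x|) ∂gaussianReal 0 1 := hprod
    _ ≤ ∏ _k : ι, (2 * Real.exp (b ^ 2 / 2)) :=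
        Finset.prod_le_prod (fun _ _ => integral_nonneg fun _ => (Real.exp_pos _).le) fun _ _ => h1
    _ = 2 ^ Fintype.card ι * Real.exp (Fintype.card ι * b ^ 2 / 2) := by
        rw [Finset.prod_const, Finset.card_univ, mul_pow, ← Real.exp_nat_mul]
        congr 2
        ring

end Claimed.Agent.R286
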