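import Mathlib

/-!
# Row 286 (S0533), BASE library, file 1: WEIGHTED SMOOTH CLASSES ON A CONVEX DOMAIN      (helper11; prefix `sk_b_`)

`X` = any real normed space, `D ⊆ X` a convex set with unique derivatives (`[SkDom D]`: `univ`, products, `Icc 0 1`, orthants, ...).   PAPER FREE.
PARAMETERS ARE COORDINATES: a family `F_θ (z)`, `θ ∈ Θ`, is ONE function on `X = P × E`, `D = Θ ×ˢ univ`; no parameter: `D = univ`.
All derivatives are derivatives WITHIN `D` (one sided at the boundary of the parameter set).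
* `SkRel D w f`   `f : X → V` is `C^∞` on `D` and EVERY iterated derivative within `D` (order `0` included) is `≤ C_n * w z` on `D`      (the only primitive notion)
* `skbW B`         the weight `exp (B ‖z‖)`;      `SkEG D f := ∃ B, SkRel D (skbW B) f`      (exponential growth class: everything can be integrated against Gaussians)
* `SkBd D f`      `SkRel D 1 f`: all derivatives bounded
* `SkTame D F`    `F : X → ℝ` smooth on `D`, `fderivWithin F D` is `SkBd`      (continuations `F_j` of a hierarchy)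
* `SkLW D w`      `0 < w`, `SkRel D w w`      (log-tame weights: `exp (m F)`, partition functions, Gaussian averages of such)
* `skD D e f`     the derivative of `f` within `D` in the direction `e`
-/

set_option autoImplicit false
set_option linter.unusedSectionVars false

namespace Claimed.Agent.R286

open scoped ContDiff
open Finset

variable {X : Type} [NormedAddCommGroup X] [NormedSpace ℝ X] {V : Type} [NormedAddCommGroup V] [NormedSpace ℝ V] {D : Set X}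

/-- admissible domains -/
class SkDom (D : Set X) : Prop where
  cvx : Convex ℝ D
  ud : UniqueDiffOn ℝ D

/-- `f` is smooth on `D` and all its derivatives within `D` are dominated by the weight `w` -/
structure SkRel (D : Set X) (w : X → ℝ) (f : X → V) : Prop where
  smooth : ContDiffOn ℝ ∞ f D
  bound : ∀ n : ℕ, ∃ C : ℝ, ∀ z ∈ D, ‖iteratedFDerivWithin ℝ n f D z‖ ≤ C * w z

/-- the exponential weight -/
noncomputable def skbW (B : ℝ) (z : X) : ℝ := Real.exp (B * ‖z‖)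

/-- exponential growth class -/
def SkEG (D : Set X) (f : X → V) : Prop := ∃ B : ℝ, SkRel D (skbW B) f

/-- all derivatives are bounded -/
def SkBd (D : Set X) (f : X → V) : Prop := SkRel D (fun _ => 1) f

/-- smooth, all derivatives of order `≥ 1` bounded -/
structure SkTame (D : Set X) (F : X → ℝ) : Prop where
  smooth : ContDiffOn ℝ ∞ F D
  bd : SkBd D (fderivWithin ℝ F D)

/-- log-tame weights -/
structure SkLW (D : Set X) (w : X → ℝ) : Prop where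
  pos : ∀ z ∈ D, 0 < w z
  rel : SkRel D w w

/-- derivative within `D` in the direction `e` -/
noncomputable def skD (D : Set X) (e : X) (f : X → V) (z : X) : V := fderivWithin ℝ f D z e

theorem sk_b_rel_eqns_cite : True := by
  have := @skbW.eq_1; have := @SkEG.eq_1; have := @SkBd.eq_1; have := @skD.eq_1
  trivial

/-! ## domains -/

instance sk_b_dom_univ : SkDom (Set.univ : Set X) := ⟨convex_univ, uniqueDiffOn_univ⟩

instance sk_b_dom_prod {Y : Type} [NormedAddCommGroup Y] [NormedSpace ℝ Y] (D : Set X) (D' : Set Y) [h : SkDom D] [h' : SkDom D'] : SkDom (D ×ˢ D') :=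
  ⟨h.cvx.prod h'.cvx, h.ud.prod h'.ud⟩

theorem sk_b_dom_of_interior {D : Set X} (h : Convex ℝ D) (h' : (interior D).Nonempty) : SkDom D := ⟨h, uniqueDiffOn_convex h h'⟩

instance sk_b_dom_Icc01 : SkDom (Set.Icc (0 : ℝ) 1) := ⟨convex_Icc 0 1, uniqueDiffOn_Icc zero_lt_one⟩

instance sk_b_dom_Ici (a : ℝ) : SkDom (Set.Ici a) := ⟨convex_Ici a, uniqueDiffOn_Ici a⟩

theorem sk_b_dom_Icc {a b : ℝ} (h : a < b) : SkDom (Set.Icc a b) := ⟨convex_Icc a b, uniqueDiffOn_Icc h⟩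

/-! ## the algebra of `SkRel` -/

theorem sk_b_rel_congr {w : X → ℝ} {f g : X → V} (h : SkRel D w f) (hfg : ∀ z ∈ D, g z = f z) : SkRel D w g := by
  refine ⟨h.smooth.congr hfg, fun n => ?_⟩
  obtain ⟨C, hC⟩ := h.bound n
  exact ⟨C, fun z hz => by rw [iteratedFDerivWithin_congr hfg hz n]; exact hC z hz⟩

theorem sk_b_rel_mono {w w' : X → ℝ} {f : X → V} (h : SkRel D w f) (K : ℝ) (hw : ∀ z ∈ D, 0 ≤ w z) (hww : ∀ z ∈ D, w z ≤ K * w' z) : SkRel D w' f := by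
  refine ⟨h.smooth, fun n => ?_⟩
  obtain ⟨C, hC⟩ := h.bound n
  refine ⟨|C| * K, fun z hz => (hC z hz).trans ?_⟩
  calc C * w z ≤ |C| * w z := mul_le_mul_of_nonneg_right (le_abs_self C) (hw z hz)
    _ ≤ |C| * (K * w' z) := mul_le_mul_of_nonneg_left (hww z hz) (abs_nonneg C)
    _ = |C| * K * w' z := by ring

/-- only the values of the weight on `D` matter -/
theorem sk_b_rel_congr_w {w w' : X → ℝ} {f : X → V} (h : SkRel D w f) (hww : ∀ z ∈ D, w z = w' z) : SkRel D w' f := by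
  refine ⟨h.smooth, fun n => ?_⟩
  obtain ⟨C, hC⟩ := h.bound n
  exact ⟨C, fun z hz => by rw [← hww z hz]; exact hC z hz⟩

/-- the constants may be taken nonnegative -/
theorem sk_b_rel_bound {w : X → ℝ} {f : X → V} (h : SkRel D w f) (hw : ∀ z ∈ D, 0 ≤ w z) (n : ℕ) :
    ∃ C : ℝ, 0 ≤ C ∧ ∀ z ∈ D, ‖iteratedFDerivWithin ℝ n f D z‖ ≤ C * w z := by
  obtain ⟨C, hC⟩ := h.bound n
  exact ⟨|C|, abs_nonneg C, fun z hz => (hC z hz).trans (mul_le_mul_of_nonneg_right (le_abs_self C) (hw z hz))⟩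

/-- one constant for all orders `≤ n` -/
theorem sk_b_rel_bound_le {w : X → ℝ} {f : X → V} (h : SkRel D w f) (hw : ∀ z ∈ D, 0 ≤ w z) (n : ℕ) :
    ∃ C : ℝ, 0 ≤ C ∧ ∀ i ≤ n, ∀ z ∈ D, ‖iteratedFDerivWithin ℝ i f D z‖ ≤ C * w z := by
  choose C hC0 hC using fun i => sk_b_rel_bound h hw i
  refine ⟨∑ i ∈ range (n + 1), C i, sum_nonneg fun i _ => hC0 i, fun i hi z hz => (hC i z hz).trans ?_⟩
  exact mul_le_mul_of_nonneg_right (single_le_sum (f := C) (fun j _ => hC0 j) (mem_range.2 (Nat.lt_succ_of_le hi))) (hw z hz)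

theorem sk_b_rel_norm_le {w : X → ℝ} {f : X → V} (h : SkRel D w f) : ∃ C : ℝ, ∀ z ∈ D, ‖f z‖ ≤ C * w z := by
  obtain ⟨C, hC⟩ := h.bound 0
  exact ⟨C, fun z hz => by simpa using hC z hz⟩

theorem sk_b_rel_zero (D : Set X) (w : X → ℝ) : SkRel D w (fun _ => (0 : V)) := by
  refine ⟨contDiffOn_const, fun n => ⟨0, fun z _ => ?_⟩⟩
  rw [iteratedFDerivWithin_fun_zero]
  simp

theorem sk_b_rel_add [hD : SkDom D] {w w' : X → ℝ} {f g : X → V} (hf : SkRel D w f) (hg : SkRel D w' g) (hw : ∀ z ∈ D, 0 ≤ w z) (hw' : ∀ z ∈ D, 0 ≤ w' z) :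
    SkRel D (fun z => w z + w' z) (fun z => f z + g z) := by
  refine ⟨hf.smooth.add hg.smooth, fun n => ?_⟩
  obtain ⟨C, hC0, hC⟩ := sk_b_rel_bound hf hw n
  obtain ⟨C', hC0', hC'⟩ := sk_b_rel_bound hg hw' n
  refine ⟨C + C', fun z hz => ?_⟩
  have e : iteratedFDerivWithin ℝ n (fun z => f z + g z) D z = iteratedFDerivWithin ℝ n f D z + iteratedFDerivWithin ℝ n g D z :=
    iteratedFDerivWithin_add_apply ((hf.smooth z hz).of_le (by exact_mod_cast le_top)) ((hg.smooth z hz).of_le (by exact_mod_cast le_top)) hD.ud hz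
  rw [e]
  refine (norm_add_le _ _).trans ?_
  have := hC z hz
  have := hC' z hz
  have := mul_nonneg hC0 (hw' z hz)
  have := mul_nonneg hC0' (hw z hz)
  nlinarith

theorem sk_b_rel_add' [SkDom D] {w : X → ℝ} {f g : X → V} (hf : SkRel D w f) (hg : SkRel D w g) (hw : ∀ z ∈ D, 0 ≤ w z) :
    SkRel D w (fun z => f z + g z) :=
  sk_b_rel_mono (sk_b_rel_add hf hg hw hw) 2 (fun z hz => add_nonneg (hw z hz) (hw z hz)) (fun z _ => by linarith)

/-- post-composition with a continuous linear map -/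
theorem sk_b_rel_clm [hD : SkDom D] {W : Type} [NormedAddCommGroup W] [NormedSpace ℝ W] {w : X → ℝ} {f : X → V} (L : V →L[ℝ] W) (hf : SkRel D w f) (hw : ∀ z ∈ D, 0 ≤ w z) :
    SkRel D w (fun z => L (f z)) := by
  refine ⟨L.contDiff.comp_contDiffOn hf.smooth, fun n => ?_⟩
  obtain ⟨C, hC0, hC⟩ := sk_b_rel_bound hf hw n
  refine ⟨‖L‖ * C, fun z hz => ?_⟩
  have h1 := L.norm_iteratedFDerivWithin_comp_left (hf.smooth z hz) hD.ud hz (n := n) (by exact_mod_cast le_top)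
  refine h1.trans ?_
  rw [mul_assoc]
  exact mul_le_mul_of_nonneg_left (hC z hz) (norm_nonneg _)

theorem sk_b_rel_smul_const [SkDom D] {w : X → ℝ} {f : X → V} (c : ℝ) (hf : SkRel D w f) (hw : ∀ z ∈ D, 0 ≤ w z) : SkRel D w (fun z => c • f z) :=
  sk_b_rel_clm (c • ContinuousLinearMap.id ℝ V) hf hw

theorem sk_b_rel_neg [SkDom D] {w : X → ℝ} {f : X → V} (hf : SkRel D w f) (hw : ∀ z ∈ D, 0 ≤ w z) : SkRel D w (fun z => - f z) := by
  have := sk_b_rel_smul_const (-1) hf hw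
  simpa using this

theorem sk_b_rel_sub [SkDom D] {w : X → ℝ} {f g : X → V} (hf : SkRel D w f) (hg : SkRel D w g) (hw : ∀ z ∈ D, 0 ≤ w z) :
    SkRel D w (fun z => f z - g z) := by
  have := sk_b_rel_add' hf (sk_b_rel_neg hg hw) hw
  simpa [sub_eq_add_neg] using this

theorem sk_b_rel_sum [SkDom D] {J : Type} (s : Finset J) {w : X → ℝ} {f : J → X → V} (hf : ∀ i ∈ s, SkRel D w (f i)) (hw : ∀ z ∈ D, 0 ≤ w z) :
    SkRel D w (fun z => ∑ i ∈ s, f i z) := by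
  classical
  induction s using Finset.induction_on with
  | empty => simpa using sk_b_rel_zero D w
  | insert a s ha ih =>
    have h1 := sk_b_rel_add' (hf a (mem_insert_self a s)) (ih fun i hi => hf i (mem_insert_of_mem hi)) hw
    simpa [sum_insert ha] using h1

/-- bilinear products -/
theorem sk_b_rel_bilin [hD : SkDom D] {V₁ V₂ W : Type} [NormedAddCommGroup V₁] [NormedSpace ℝ V₁] [NormedAddCommGroup V₂] [NormedSpace ℝ V₂] [NormedAddCommGroup W] [NormedSpace ℝ W]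
    (B : V₁ →L[ℝ] V₂ →L[ℝ] W) {w w' : X → ℝ} {f : X → V₁} {g : X → V₂} (hf : SkRel D w f) (hg : SkRel D w' g) (hw : ∀ z ∈ D, 0 ≤ w z) (hw' : ∀ z ∈ D, 0 ≤ w' z) :
    SkRel D (fun z => w z * w' z) (fun z => B (f z) (g z)) := by
  refine ⟨B.isBoundedBilinearMap.contDiff.comp_contDiffOn (hf.smooth.prodMk hg.smooth), fun n => ?_⟩
  obtain ⟨C, hC0, hC⟩ := sk_b_rel_bound_le hf hw n
  obtain ⟨C', hC0', hC'⟩ := sk_b_rel_bound_le hg hw' n
  refine ⟨‖B‖ * ∑ i ∈ range (n + 1), (n.choose i : ℝ) * C * C', fun z hz => ?_⟩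
  refine (B.norm_iteratedFDerivWithin_le_of_bilinear hf.smooth hg.smooth hD.ud hz (n := n) (by exact_mod_cast le_top)).trans ?_
  rw [mul_assoc, sum_mul]
  refine mul_le_mul_of_nonneg_left (sum_le_sum fun i hi => ?_) (norm_nonneg B)
  have h1 := hC i (Nat.lt_succ_iff.1 (mem_range.1 hi)) z hz
  have h2 := hC' (n - i) (Nat.sub_le n i) z hz
  calc (n.choose i : ℝ) * ‖iteratedFDerivWithin ℝ i f D z‖ * ‖iteratedFDerivWithin ℝ (n - i) g D z‖
      ≤ (n.choose i : ℝ) * (C * w z) * (C' * w' z) := by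
        refine mul_le_mul (mul_le_mul_of_nonneg_left h1 (Nat.cast_nonneg _)) h2 (norm_nonneg _) ?_
        exact mul_nonneg (Nat.cast_nonneg _) (mul_nonneg hC0 (hw z hz))
    _ = (n.choose i : ℝ) * C * C' * (w z * w' z) := by ring

theorem sk_b_rel_mul [SkDom D] {w w' : X → ℝ} {f g : X → ℝ} (hf : SkRel D w f) (hg : SkRel D w' g) (hw : ∀ z ∈ D, 0 ≤ w z) (hw' : ∀ z ∈ D, 0 ≤ w' z) :
    SkRel D (fun z => w z * w' z) (fun z => f z * g z) :=
  sk_b_rel_bilin (ContinuousLinearMap.mul ℝ ℝ) hf hg hw hw'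

theorem sk_b_rel_smul [SkDom D] {w w' : X → ℝ} {f : X → ℝ} {g : X → V} (hf : SkRel D w f) (hg : SkRel D w' g) (hw : ∀ z ∈ D, 0 ≤ w z) (hw' : ∀ z ∈ D, 0 ≤ w' z) :
    SkRel D (fun z => w z * w' z) (fun z => f z • g z) :=
  sk_b_rel_bilin (ContinuousLinearMap.lsmul ℝ ℝ) hf hg hw hw'

/-- the derivative -/
theorem sk_b_rel_fderiv [hD : SkDom D] {w : X → ℝ} {f : X → V} (hf : SkRel D w f) : SkRel D w (fderivWithin ℝ f D) := by
  refine ⟨hf.smooth.fderivWithin hD.ud (m := ∞) (by simp), fun n => ?_⟩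
  obtain ⟨C, hC⟩ := hf.bound (n + 1)
  exact ⟨C, fun z hz => by rw [norm_iteratedFDerivWithin_fderivWithin hD.ud hz]; exact hC z hz⟩

theorem sk_b_rel_D [SkDom D] {w : X → ℝ} {f : X → V} (e : X) (hf : SkRel D w f) (hw : ∀ z ∈ D, 0 ≤ w z) : SkRel D w (skD D e f) :=
  sk_b_rel_clm (ContinuousLinearMap.apply ℝ V e) (sk_b_rel_fderiv hf) hw

theorem sk_b_rel_const (D : Set X) (c : V) : SkRel D (fun _ : X => (1 : ℝ)) (fun _ : X => c) := by
  refine ⟨contDiffOn_const, fun n => ⟨‖c‖, fun z _ => ?_⟩⟩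
  rcases Nat.eq_zero_or_pos n with rfl | hn
  · simp
  · rw [iteratedFDerivWithin_const_of_ne (by omega)]
    simp

theorem sk_b_rel_diff {w : X → ℝ} {f : X → V} (hf : SkRel D w f) : DifferentiableOn ℝ f D := hf.smooth.differentiableOn (by simp)

theorem sk_b_rel_hasFDeriv {w : X → ℝ} {f : X → V} (hf : SkRel D w f) {z : X} (hz : z ∈ D) : HasFDerivWithinAt f (fderivWithin ℝ f D z) D z :=
  (sk_b_rel_diff hf z hz).hasFDerivWithinAt

theorem sk_b_rel_cont {w : X → ℝ} {f : X → V} (hf : SkRel D w f) : ContinuousOn f D := hf.smooth.continuousOn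

/-! ## tame functions -/

theorem sk_b_tame_bound [hD : SkDom D] {F : X → ℝ} (hF : SkTame D F) (n : ℕ) : ∃ C : ℝ, 0 ≤ C ∧ ∀ i, 1 ≤ i → i ≤ n → ∀ z ∈ D, ‖iteratedFDerivWithin ℝ i F D z‖ ≤ C := by
  obtain ⟨C, hC0, hC⟩ := sk_b_rel_bound_le hF.bd (fun _ _ => zero_le_one) n
  refine ⟨C, hC0, fun i h1 hi z hz => ?_⟩
  obtain ⟨j, rfl⟩ : ∃ j, i = j + 1 := ⟨i - 1, by omega⟩
  rw [← norm_iteratedFDerivWithin_fderivWithin hD.ud hz]
  simpa using hC j (by omega) z hz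

theorem sk_b_tame_of_bound [hD : SkDom D] {F : X → ℝ} (h1 : ContDiffOn ℝ ∞ F D) (h2 : ∀ n : ℕ, 1 ≤ n → ∃ C : ℝ, ∀ z ∈ D, ‖iteratedFDerivWithin ℝ n F D z‖ ≤ C) : SkTame D F := by
  refine ⟨h1, h1.fderivWithin hD.ud (m := ∞) (by simp), fun n => ?_⟩
  obtain ⟨C, hC⟩ := h2 (n + 1) (by omega)
  exact ⟨C, fun z hz => by rw [norm_iteratedFDerivWithin_fderivWithin hD.ud hz, mul_one]; exact hC z hz⟩

theorem sk_b_tame_diff {F : X → ℝ} (hF : SkTame D F) : DifferentiableOn ℝ F D := hF.smooth.differentiableOn (by simp)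

theorem sk_b_tame_congr {F G : X → ℝ} (hF : SkTame D F) (h : ∀ z ∈ D, G z = F z) : SkTame D G := by
  refine ⟨hF.smooth.congr h, sk_b_rel_congr hF.bd fun z hz => ?_⟩
  exact fderivWithin_congr h (h z hz)

/-- a tame function is Lipschitz -/
theorem sk_b_tame_lip [hD : SkDom D] {F : X → ℝ} (hF : SkTame D F) : ∃ C : ℝ, 0 ≤ C ∧ (∀ z ∈ D, ‖fderivWithin ℝ F D z‖ ≤ C) ∧ ∀ z ∈ D, ∀ z' ∈ D, |F z - F z'| ≤ C * ‖z - z'‖ := by
  obtain ⟨C, hC0, hC⟩ := sk_b_rel_bound hF.bd (fun _ _ => zero_le_one) 0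
  have hC' : ∀ z ∈ D, ‖fderivWithin ℝ F D z‖ ≤ C := fun z hz => by simpa using hC z hz
  refine ⟨C, hC0, hC', fun z hz z' hz' => ?_⟩
  have := Convex.norm_image_sub_le_of_norm_fderivWithin_le (𝕜 := ℝ) (f := F) (s := D) (sk_b_tame_diff hF) hC' hD.cvx hz' hz
  simpa using this

theorem sk_b_tame_growth [SkDom D] {F : X → ℝ} (hF : SkTame D F) : ∃ A C : ℝ, 0 ≤ A ∧ 0 ≤ C ∧ ∀ z ∈ D, |F z| ≤ A + C * ‖z‖ := by
  obtain ⟨C, hC0, -, hC⟩ := sk_b_tame_lip hF
  rcases D.eq_empty_or_nonempty with rfl | ⟨x₀, hx₀⟩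
  · exact ⟨0, 0, le_rfl, le_rfl, fun z hz => hz.elim⟩
  refine ⟨|F x₀| + C * ‖x₀‖, C, by positivity, hC0, fun z hz => ?_⟩
  have h1 := hC z hz x₀ hx₀
  have h2 := abs_sub_abs_le_abs_sub (F z) (F x₀)
  have h3 : C * ‖z - x₀‖ ≤ C * (‖z‖ + ‖x₀‖) := mul_le_mul_of_nonneg_left (norm_sub_le _ _) hC0
  linarith

theorem sk_b_tame_of_bd [SkDom D] {F : X → ℝ} (hF : SkBd D F) : SkTame D F := ⟨hF.smooth, sk_b_rel_fderiv hF⟩

theorem sk_b_tame_const [SkDom D] (c : ℝ) : SkTame D (fun _ : X => c) := sk_b_tame_of_bd (sk_b_rel_const D c)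

theorem sk_b_tame_add [hD : SkDom D] {F G : X → ℝ} (hF : SkTame D F) (hG : SkTame D G) : SkTame D (fun z => F z + G z) := by
  refine ⟨hF.smooth.add hG.smooth, ?_⟩
  refine sk_b_rel_congr (sk_b_rel_add' hF.bd hG.bd fun _ _ => zero_le_one) fun z hz => ?_
  exact fderivWithin_fun_add (hD.ud z hz) (sk_b_tame_diff hF z hz) (sk_b_tame_diff hG z hz)

theorem sk_b_tame_const_mul [hD : SkDom D] {F : X → ℝ} (c : ℝ) (hF : SkTame D F) : SkTame D (fun z => c * F z) := by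
  refine ⟨contDiffOn_const.mul hF.smooth, ?_⟩
  refine sk_b_rel_congr (sk_b_rel_smul_const c hF.bd fun _ _ => zero_le_one) fun z hz => ?_
  exact fderivWithin_const_mul (hD.ud z hz) (sk_b_tame_diff hF z hz) c

theorem sk_b_tame_neg [SkDom D] {F : X → ℝ} (hF : SkTame D F) : SkTame D (fun z => - F z) := by
  simpa using sk_b_tame_const_mul (-1) hF

theorem sk_b_tame_sub [SkDom D] {F G : X → ℝ} (hF : SkTame D F) (hG : SkTame D G) : SkTame D (fun z => F z - G z) := by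
  simpa [sub_eq_add_neg] using sk_b_tame_add hF (sk_b_tame_neg hG)

theorem sk_b_tame_sum [SkDom D] {J : Type} (s : Finset J) {F : J → X → ℝ} (hF : ∀ i ∈ s, SkTame D (F i)) : SkTame D (fun z => ∑ i ∈ s, F i z) := by
  classical
  induction s using Finset.induction_on with
  | empty => simpa using sk_b_tame_const (D := D) 0
  | insert a s ha ih =>
    have h1 := sk_b_tame_add (hF a (mem_insert_self a s)) (ih fun i hi => hF i (mem_insert_of_mem hi))
    simpa [sum_insert ha] using h1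

/-- continuous linear functionals are tame -/
theorem sk_b_tame_clm [hD : SkDom D] (L : X →L[ℝ] ℝ) : SkTame D (fun z => L z) := by
  refine ⟨L.contDiff.contDiffOn, ?_⟩
  refine sk_b_rel_congr (sk_b_rel_const D L) fun z hz => ?_
  exact L.fderivWithin (hD.ud z hz)

/-! ## log-tame weights -/

/-- **`exp` of a tame function is a log-tame weight** -/
theorem sk_b_lw_exp [hD : SkDom D] {F : X → ℝ} (hF : SkTame D F) : SkLW D (fun z => Real.exp (F z)) := by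
  refine ⟨fun z _ => Real.exp_pos _, Real.contDiff_exp.comp_contDiffOn hF.smooth, fun n => ?_⟩
  obtain ⟨C, hC0, hC⟩ := sk_b_tame_bound hF n
  refine ⟨n.factorial * (max 1 C) ^ n, fun z hz => ?_⟩
  have h := norm_iteratedFDerivWithin_comp_le (𝕜 := ℝ) (g := Real.exp) (f := F) (n := n) (N := ∞) (s := D) (t := Set.univ) Real.contDiff_exp.contDiffOn hF.smooth
    (by exact_mod_cast le_top) uniqueDiffOn_univ hD.ud (Set.mapsTo_univ _ _) hz
    (C := Real.exp (F z)) (D := max 1 C) (fun i _ => by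
      rw [iteratedFDerivWithin_univ, norm_iteratedFDeriv_eq_norm_iteratedDeriv, iteratedDeriv_eq_iterate, Real.iter_deriv_exp, Real.norm_eq_abs, abs_of_pos (Real.exp_pos _)])
    (fun i h1 hi => (hC i h1 hi z hz).trans ((le_max_right 1 C).trans (le_self_pow₀ (le_max_left 1 C) (by omega))))
  calc _ ≤ _ := h
    _ = _ := by ring

/-- **the inverse of a log-tame weight** -/
theorem sk_b_lw_inv [hD : SkDom D] {w : X → ℝ} (hw : SkLW D w) : SkLW D (fun z => (w z)⁻¹) := by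
  have hs : ContDiffOn ℝ ∞ (fun z => (w z)⁻¹) D := hw.rel.smooth.inv fun z hz => (hw.pos z hz).ne'
  refine ⟨fun z hz => inv_pos.2 (hw.pos z hz), hs, fun n => ?_⟩
  obtain ⟨C, hC0, hC⟩ := sk_b_rel_bound_le hw.rel (fun z hz => (hw.pos z hz).le) n
  refine ⟨n.factorial * n.factorial * (max 1 C) ^ n, fun z₀ hz₀ => ?_⟩
  have hc := hw.pos z₀ hz₀
  have hf : ContDiffOn ℝ ∞ (fun z => (w z₀)⁻¹ * w z) D := contDiffOn_const.mul hw.rel.smooth
  have hD' : ∀ i, 1 ≤ i → i ≤ n → ‖iteratedFDerivWithin ℝ i (fun z => (w z₀)⁻¹ * w z) D z₀‖ ≤ (max 1 C) ^ i := by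
    intro i h1 hi
    have e : iteratedFDerivWithin ℝ i (fun z => (w z₀)⁻¹ * w z) D z₀ = (w z₀)⁻¹ • iteratedFDerivWithin ℝ i w D z₀ :=
      iteratedFDerivWithin_const_smul_apply (a := (w z₀)⁻¹) (f := w) ((hw.rel.smooth z₀ hz₀).of_le (by exact_mod_cast le_top)) hD.ud hz₀
    rw [e, norm_smul, Real.norm_eq_abs, abs_of_pos (inv_pos.2 hc)]
    have h2 := hC i hi z₀ hz₀
    calc (w z₀)⁻¹ * ‖iteratedFDerivWithin ℝ i w D z₀‖ ≤ (w z₀)⁻¹ * (C * w z₀) := mul_le_mul_of_nonneg_left h2 (inv_pos.2 hc).le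
      _ = C := by field_simp
      _ ≤ max 1 C := le_max_right _ _
      _ ≤ _ := le_self_pow₀ (le_max_left 1 C) (by omega)
  have hgC : ∀ i, i ≤ n → ‖iteratedFDerivWithin ℝ i (Inv.inv : ℝ → ℝ) (Set.Ioi 0) ((w z₀)⁻¹ * w z₀)‖ ≤ n.factorial := by
    intro i hi
    rw [inv_mul_cancel₀ hc.ne', iteratedFDerivWithin_of_isOpen i isOpen_Ioi (by simp), norm_iteratedFDeriv_eq_norm_iteratedDeriv, iteratedDeriv_eq_iterate, iter_deriv_inv]
    simp only [one_zpow, mul_one, norm_mul, norm_pow, norm_neg, norm_one, one_pow, one_mul, Real.norm_natCast]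
    exact_mod_cast Nat.factorial_le hi
  have h := norm_iteratedFDerivWithin_comp_le (𝕜 := ℝ) (g := (Inv.inv : ℝ → ℝ)) (f := fun z => (w z₀)⁻¹ * w z) (n := n) (N := ∞) (s := D) (t := Set.Ioi 0)
    (contDiffOn_inv ℝ |>.mono fun x hx => (ne_of_gt hx : x ≠ 0)) hf (by exact_mod_cast le_top) (uniqueDiffOn_Ioi 0) hD.ud
    (fun z hz => mul_pos (inv_pos.2 hc) (hw.pos z hz)) hz₀ hgC hD'
  have e2 : ∀ z ∈ D, (w z)⁻¹ = ((w z₀)⁻¹ • ((Inv.inv : ℝ → ℝ) ∘ fun z => (w z₀)⁻¹ * w z)) z := by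
    intro z hz
    have := (hw.pos z hz).ne'
    simp only [Function.comp, Pi.smul_apply, smul_eq_mul]
    field_simp
  have hgf : ContDiffOn ℝ ∞ ((Inv.inv : ℝ → ℝ) ∘ fun z => (w z₀)⁻¹ * w z) D := hf.inv fun z hz => (mul_pos (inv_pos.2 hc) (hw.pos z hz)).ne'
  have e3 : iteratedFDerivWithin ℝ n (fun z => (w z)⁻¹) D z₀ = (w z₀)⁻¹ • iteratedFDerivWithin ℝ n ((Inv.inv : ℝ → ℝ) ∘ fun z => (w z₀)⁻¹ * w z) D z₀ := by
    rw [iteratedFDerivWithin_congr e2 hz₀ n]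
    exact iteratedFDerivWithin_const_smul_apply (a := (w z₀)⁻¹) (f := (Inv.inv : ℝ → ℝ) ∘ fun z => (w z₀)⁻¹ * w z) ((hgf z₀ hz₀).of_le (by exact_mod_cast le_top)) hD.ud hz₀
  rw [e3, norm_smul, Real.norm_eq_abs, abs_of_pos (inv_pos.2 hc), mul_comm]
  exact mul_le_mul_of_nonneg_right h (inv_pos.2 hc).le

theorem sk_b_lw_congr {w w' : X → ℝ} (hw : SkLW D w) (h : ∀ z ∈ D, w' z = w z) : SkLW D w' :=
  ⟨fun z hz => by rw [h z hz]; exact hw.pos z hz, sk_b_rel_congr_w (sk_b_rel_congr hw.rel h) fun z hz => (h z hz).symm⟩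

theorem sk_b_lw_mul [SkDom D] {w w' : X → ℝ} (hw : SkLW D w) (hw' : SkLW D w') : SkLW D (fun z => w z * w' z) :=
  ⟨fun z hz => mul_pos (hw.pos z hz) (hw'.pos z hz), sk_b_rel_mul hw.rel hw'.rel (fun z hz => (hw.pos z hz).le) fun z hz => (hw'.pos z hz).le⟩

theorem sk_b_lw_add [SkDom D] {w w' : X → ℝ} (hw : SkLW D w) (hw' : SkLW D w') : SkLW D (fun z => w z + w' z) :=
  ⟨fun z hz => add_pos (hw.pos z hz) (hw'.pos z hz), sk_b_rel_add hw.rel hw'.rel (fun z hz => (hw.pos z hz).le) fun z hz => (hw'.pos z hz).le⟩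

theorem sk_b_lw_const (D : Set X) {c : ℝ} (hc : 0 < c) : SkLW D (fun _ : X => c) :=
  ⟨fun _ _ => hc, sk_b_rel_mono (sk_b_rel_const D c) c⁻¹ (fun _ _ => zero_le_one) fun _ _ => by rw [inv_mul_cancel₀ hc.ne']⟩

theorem sk_b_lw_const_mul [SkDom D] {w : X → ℝ} {c : ℝ} (hc : 0 < c) (hw : SkLW D w) : SkLW D (fun z => c * w z) := sk_b_lw_mul (sk_b_lw_const D hc) hw

theorem sk_b_lw_sum [SkDom D] {J : Type} (s : Finset J) (hs : s.Nonempty) {w : J → X → ℝ} (hw : ∀ i ∈ s, SkLW D (w i)) : SkLW D (fun z => ∑ i ∈ s, w i z) := by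
  classical
  induction hs using Finset.Nonempty.cons_induction with
  | singleton a => simpa using hw a (by simp)
  | cons a s ha hs ih =>
    have h1 := sk_b_lw_add (hw a (by simp)) (ih fun i hi => hw i (by simp [hi]))
    simp only [sum_cons]
    exact h1

/-- dividing by the weight -/
theorem sk_b_bd_div [SkDom D] {w : X → ℝ} {f : X → V} (hw : SkLW D w) (hf : SkRel D w f) : SkBd D (fun z => (w z)⁻¹ • f z) := by
  have h := sk_b_rel_smul (sk_b_lw_inv hw).rel hf (fun z hz => (inv_pos.2 (hw.pos z hz)).le) fun z hz => (hw.pos z hz).le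
  exact sk_b_rel_mono h 1 (fun z hz => (mul_pos (inv_pos.2 (hw.pos z hz)) (hw.pos z hz)).le) fun z hz => by rw [inv_mul_cancel₀ (hw.pos z hz).ne']; norm_num

/-- **the logarithm of a log-tame weight is tame** -/
theorem sk_b_tame_log [hD : SkDom D] {w : X → ℝ} (hw : SkLW D w) : SkTame D (fun z => Real.log (w z)) := by
  refine ⟨hw.rel.smooth.log fun z hz => (hw.pos z hz).ne', ?_⟩
  refine sk_b_rel_congr (sk_b_bd_div hw (sk_b_rel_fderiv hw.rel)) fun z hz => ?_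
  exact fderivWithin.log (sk_b_rel_diff hw.rel z hz) (hw.pos z hz).ne' (hD.ud z hz)

theorem sk_b_lw_growth [SkDom D] {w : X → ℝ} (hw : SkLW D w) : ∃ A B : ℝ, 0 ≤ A ∧ 0 ≤ B ∧ ∀ z ∈ D, w z ≤ A * skbW B z := by
  obtain ⟨A, C, hA0, hC0, hC⟩ := sk_b_tame_growth (sk_b_tame_log hw)
  refine ⟨Real.exp A, C, (Real.exp_pos _).le, hC0, fun z hz => ?_⟩
  unfold skbW
  rw [← Real.exp_add, ← Real.log_le_iff_le_exp (hw.pos z hz)]
  exact (le_abs_self _).trans (hC z hz)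

/-- real powers -/
theorem sk_b_lw_rpow [SkDom D] {w : X → ℝ} (hw : SkLW D w) (p : ℝ) : SkLW D (fun z => w z ^ p) := by
  have h := sk_b_lw_exp (sk_b_tame_const_mul p (sk_b_tame_log hw))
  refine sk_b_lw_congr h fun z hz => ?_
  rw [Real.rpow_def_of_pos (hw.pos z hz), mul_comm]

theorem sk_b_W_pos (B : ℝ) (z : X) : 0 < skbW B z := Real.exp_pos _

theorem sk_b_W_mul (B B' : ℝ) (z : X) : skbW B z * skbW B' z = skbW (B + B') z := by
  unfold skbW
  rw [← Real.exp_add]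
  ring_nf

theorem sk_b_W_mono {B B' : ℝ} (h : B ≤ B') (z : X) : skbW B z ≤ skbW B' z :=
  Real.exp_le_exp.2 (mul_le_mul_of_nonneg_right h (norm_nonneg z))

theorem sk_b_W_one_le {B : ℝ} (h : 0 ≤ B) (z : X) : 1 ≤ skbW B z := Real.one_le_exp (mul_nonneg h (norm_nonneg z))

theorem sk_b_W_cont (B : ℝ) : Continuous (skbW B : X → ℝ) := by
  unfold skbW
  fun_prop

/-! ## the exponential growth class -/

theorem sk_b_eg_congr {f g : X → V} (h : SkEG D f) (hfg : ∀ z ∈ D, g z = f z) : SkEG D g := by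
  obtain ⟨B, hB⟩ := h
  exact ⟨B, sk_b_rel_congr hB hfg⟩

theorem sk_b_eg_of_rel [SkDom D] {w : X → ℝ} {f : X → V} (hw : SkLW D w) (hf : SkRel D w f) : SkEG D f := by
  obtain ⟨A, B, hA, -, h⟩ := sk_b_lw_growth hw
  exact ⟨B, sk_b_rel_mono hf A (fun z hz => (hw.pos z hz).le) h⟩

theorem sk_b_eg_of_lw [SkDom D] {w : X → ℝ} (hw : SkLW D w) : SkEG D w := sk_b_eg_of_rel hw hw.rel

theorem sk_b_eg_of_bd {f : X → V} (hf : SkBd D f) : SkEG D f :=
  ⟨0, sk_b_rel_mono hf 1 (fun _ _ => zero_le_one) fun z _ => by simpa using sk_b_W_one_le le_rfl z⟩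

/-- the exponent may be increased, and taken nonnegative -/
theorem sk_b_eg_rel {f : X → V} (hf : SkEG D f) : ∃ B : ℝ, 0 ≤ B ∧ SkRel D (skbW B) f := by
  obtain ⟨B, hB⟩ := hf
  exact ⟨max B 0, le_max_right _ _, sk_b_rel_mono hB 1 (fun z _ => (sk_b_W_pos B z).le) fun z _ => by rw [one_mul]; exact sk_b_W_mono (le_max_left _ _) z⟩

theorem sk_b_eg_rel_of_le {f : X → V} {B B' : ℝ} (hf : SkRel D (skbW B) f) (h : B ≤ B') : SkRel D (skbW B') f :=
  sk_b_rel_mono hf 1 (fun z _ => (sk_b_W_pos B z).le) fun z _ => by rw [one_mul]; exact sk_b_W_mono h z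

theorem sk_b_eg_add [SkDom D] {f g : X → V} (hf : SkEG D f) (hg : SkEG D g) : SkEG D (fun z => f z + g z) := by
  obtain ⟨B, hB⟩ := hf
  obtain ⟨B', hB'⟩ := hg
  exact ⟨max B B', sk_b_rel_add' (sk_b_eg_rel_of_le hB (le_max_left _ _)) (sk_b_eg_rel_of_le hB' (le_max_right _ _)) fun z _ => (sk_b_W_pos _ z).le⟩

theorem sk_b_eg_clm [SkDom D] {W : Type} [NormedAddCommGroup W] [NormedSpace ℝ W] {f : X → V} (L : V →L[ℝ] W) (hf : SkEG D f) : SkEG D (fun z => L (f z)) := by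
  obtain ⟨B, hB⟩ := hf
  exact ⟨B, sk_b_rel_clm L hB fun z _ => (sk_b_W_pos _ z).le⟩

theorem sk_b_eg_smul_const [SkDom D] {f : X → V} (c : ℝ) (hf : SkEG D f) : SkEG D (fun z => c • f z) := by
  obtain ⟨B, hB⟩ := hf
  exact ⟨B, sk_b_rel_smul_const c hB fun z _ => (sk_b_W_pos _ z).le⟩

theorem sk_b_eg_neg [SkDom D] {f : X → V} (hf : SkEG D f) : SkEG D (fun z => - f z) := by
  obtain ⟨B, hB⟩ := hf
  exact ⟨B, sk_b_rel_neg hB fun z _ => (sk_b_W_pos _ z).le⟩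

theorem sk_b_eg_sub [SkDom D] {f g : X → V} (hf : SkEG D f) (hg : SkEG D g) : SkEG D (fun z => f z - g z) := by
  simpa [sub_eq_add_neg] using sk_b_eg_add hf (sk_b_eg_neg hg)

theorem sk_b_eg_sum [SkDom D] {J : Type} (s : Finset J) {f : J → X → V} (hf : ∀ i ∈ s, SkEG D (f i)) : SkEG D (fun z => ∑ i ∈ s, f i z) := by
  classical
  induction s using Finset.induction_on with
  | empty => exact ⟨0, by simpa using sk_b_rel_zero D _⟩
  | insert a s ha ih =>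
    have h1 := sk_b_eg_add (hf a (mem_insert_self a s)) (ih fun i hi => hf i (mem_insert_of_mem hi))
    simpa [sum_insert ha] using h1

theorem sk_b_eg_bilin [SkDom D] {V₁ V₂ W : Type} [NormedAddCommGroup V₁] [NormedSpace ℝ V₁] [NormedAddCommGroup V₂] [NormedSpace ℝ V₂] [NormedAddCommGroup W] [NormedSpace ℝ W]
    (B : V₁ →L[ℝ] V₂ →L[ℝ] W) {f : X → V₁} {g : X → V₂} (hf : SkEG D f) (hg : SkEG D g) : SkEG D (fun z => B (f z) (g z)) := by
  obtain ⟨b, hb⟩ := hf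
  obtain ⟨b', hb'⟩ := hg
  refine ⟨b + b', ?_⟩
  have h := sk_b_rel_bilin B hb hb' (fun z _ => (sk_b_W_pos _ z).le) fun z _ => (sk_b_W_pos _ z).le
  simpa only [sk_b_W_mul] using h

theorem sk_b_eg_mul [SkDom D] {f g : X → ℝ} (hf : SkEG D f) (hg : SkEG D g) : SkEG D (fun z => f z * g z) := sk_b_eg_bilin (ContinuousLinearMap.mul ℝ ℝ) hf hg

theorem sk_b_eg_smul [SkDom D] {f : X → ℝ} {g : X → V} (hf : SkEG D f) (hg : SkEG D g) : SkEG D (fun z => f z • g z) := sk_b_eg_bilin (ContinuousLinearMap.lsmul ℝ ℝ) hf hg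

theorem sk_b_eg_fderiv [SkDom D] {f : X → V} (hf : SkEG D f) : SkEG D (fderivWithin ℝ f D) := by
  obtain ⟨B, hB⟩ := hf
  exact ⟨B, sk_b_rel_fderiv hB⟩

theorem sk_b_eg_D [SkDom D] {f : X → V} (e : X) (hf : SkEG D f) : SkEG D (skD D e f) := by
  obtain ⟨B, hB⟩ := hf
  exact ⟨B, sk_b_rel_D e hB fun z _ => (sk_b_W_pos _ z).le⟩

/-- tame functions have exponential growth -/
theorem sk_b_eg_of_tame [SkDom D] {F : X → ℝ} (hF : SkTame D F) : SkEG D F := by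
  obtain ⟨A, C, hA0, hC0, hC⟩ := sk_b_tame_growth hF
  refine ⟨1, hF.smooth, fun n => ?_⟩
  rcases Nat.eq_zero_or_pos n with rfl | hn
  · refine ⟨A + C, fun z hz => ?_⟩
    rw [norm_iteratedFDerivWithin_zero, Real.norm_eq_abs]
    refine (hC z hz).trans ?_
    have h1 : 1 ≤ skbW 1 z := sk_b_W_one_le zero_le_one z
    have h2 : ‖z‖ ≤ skbW 1 z := by
      unfold skbW
      rw [one_mul]
      linarith [Real.add_one_le_exp ‖z‖]
    nlinarith
  · obtain ⟨C', hC0', hC'⟩ := sk_b_tame_bound hF n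
    refine ⟨C', fun z hz => (hC' n hn le_rfl z hz).trans ?_⟩
    have h1 : 1 ≤ skbW 1 z := sk_b_W_one_le zero_le_one z
    nlinarith

theorem sk_b_eg_norm_le {f : X → V} (hf : SkEG D f) : ∃ A B : ℝ, 0 ≤ A ∧ 0 ≤ B ∧ ∀ z ∈ D, ‖f z‖ ≤ A * skbW B z := by
  obtain ⟨B, hB0, hB⟩ := sk_b_eg_rel hf
  obtain ⟨A, hA0, hA⟩ := sk_b_rel_bound hB (fun z _ => (sk_b_W_pos _ z).le) 0
  exact ⟨A, B, hA0, hB0, fun z hz => by simpa using hA z hz⟩

theorem sk_b_eg_cont {f : X → V} (hf : SkEG D f) : ContinuousOn f D := by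
  obtain ⟨B', hB'⟩ := hf
  exact hB'.smooth.continuousOn

theorem sk_b_eg_smooth {f : X → V} (hf : SkEG D f) : ContDiffOn ℝ ∞ f D := by
  obtain ⟨B', hB'⟩ := hf
  exact hB'.smooth

theorem sk_b_eg_diff {f : X → V} (hf : SkEG D f) : DifferentiableOn ℝ f D := (sk_b_eg_smooth hf).differentiableOn (by simp)

theorem sk_b_eg_hasFDeriv {f : X → V} (hf : SkEG D f) {z : X} (hz : z ∈ D) : HasFDerivWithinAt f (fderivWithin ℝ f D z) D z :=
  (sk_b_eg_diff hf z hz).hasFDerivWithinAt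

theorem sk_b_bd_D_of_tame [SkDom D] {F : X → ℝ} (e : X) (hF : SkTame D F) : SkBd D (skD D e F) :=
  sk_b_rel_clm (ContinuousLinearMap.apply ℝ ℝ e : (X →L[ℝ] ℝ) →L[ℝ] ℝ) hF.bd fun _ _ => zero_le_one

/-! ## bounded class: algebra -/

theorem sk_b_bd_const (D : Set X) (c : V) : SkBd D (fun _ : X => c) := sk_b_rel_const D c

theorem sk_b_bd_add [SkDom D] {f g : X → V} (hf : SkBd D f) (hg : SkBd D g) : SkBd D (fun z => f z + g z) := sk_b_rel_add' hf hg fun _ _ => zero_le_one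

theorem sk_b_bd_sub [SkDom D] {f g : X → V} (hf : SkBd D f) (hg : SkBd D g) : SkBd D (fun z => f z - g z) := sk_b_rel_sub hf hg fun _ _ => zero_le_one

theorem sk_b_bd_neg [SkDom D] {f : X → V} (hf : SkBd D f) : SkBd D (fun z => - f z) := sk_b_rel_neg hf fun _ _ => zero_le_one

theorem sk_b_bd_smul_const [SkDom D] {f : X → V} (c : ℝ) (hf : SkBd D f) : SkBd D (fun z => c • f z) := sk_b_rel_smul_const c hf fun _ _ => zero_le_one

theorem sk_b_bd_clm [SkDom D] {W : Type} [NormedAddCommGroup W] [NormedSpace ℝ W] {f : X → V} (L : V →L[ℝ] W) (hf : SkBd D f) : SkBd D (fun z => L (f z)) :=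
  sk_b_rel_clm L hf fun _ _ => zero_le_one

theorem sk_b_bd_sum [SkDom D] {J : Type} (s : Finset J) {f : J → X → V} (hf : ∀ i ∈ s, SkBd D (f i)) : SkBd D (fun z => ∑ i ∈ s, f i z) :=
  sk_b_rel_sum s hf fun _ _ => zero_le_one

theorem sk_b_bd_bilin [SkDom D] {V₁ V₂ W : Type} [NormedAddCommGroup V₁] [NormedSpace ℝ V₁] [NormedAddCommGroup V₂] [NormedSpace ℝ V₂] [NormedAddCommGroup W] [NormedSpace ℝ W]
    (B : V₁ →L[ℝ] V₂ →L[ℝ] W) {f : X → V₁} {g : X → V₂} (hf : SkBd D f) (hg : SkBd D g) : SkBd D (fun z => B (f z) (g z)) := by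
  have h := sk_b_rel_bilin B hf hg (fun _ _ => zero_le_one) fun _ _ => zero_le_one
  exact sk_b_rel_congr_w h fun _ _ => by norm_num

theorem sk_b_bd_mul [SkDom D] {f g : X → ℝ} (hf : SkBd D f) (hg : SkBd D g) : SkBd D (fun z => f z * g z) := sk_b_bd_bilin (ContinuousLinearMap.mul ℝ ℝ) hf hg

theorem sk_b_bd_smul [SkDom D] {f : X → ℝ} {g : X → V} (hf : SkBd D f) (hg : SkBd D g) : SkBd D (fun z => f z • g z) := sk_b_bd_bilin (ContinuousLinearMap.lsmul ℝ ℝ) hf hg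

theorem sk_b_bd_fderiv [SkDom D] {f : X → V} (hf : SkBd D f) : SkBd D (fderivWithin ℝ f D) := sk_b_rel_fderiv hf

theorem sk_b_bd_D [SkDom D] {f : X → V} (e : X) (hf : SkBd D f) : SkBd D (skD D e f) := sk_b_rel_D e hf fun _ _ => zero_le_one

theorem sk_b_bd_norm_le {f : X → V} (hf : SkBd D f) : ∃ C : ℝ, 0 ≤ C ∧ ∀ z ∈ D, ‖f z‖ ≤ C := by
  obtain ⟨C, hC0, hC⟩ := sk_b_rel_bound hf (fun _ _ => zero_le_one) 0
  exact ⟨C, hC0, fun z hz => by simpa using hC z hz⟩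

/-- a function of the weighted class times a bounded function -/
theorem sk_b_rel_smul_bd [SkDom D] {w : X → ℝ} {f : X → ℝ} {g : X → V} (hf : SkRel D w f) (hg : SkBd D g) (hw : ∀ z ∈ D, 0 ≤ w z) : SkRel D w (fun z => f z • g z) :=
  sk_b_rel_congr_w (sk_b_rel_smul hf hg hw fun _ _ => zero_le_one) fun _ _ => by ring

/-! ## affine substitution, restriction of the domain, slices -/

theorem sk_b_aff_iter {Y : Type} [NormedAddCommGroup Y] [NormedSpace ℝ Y] {D' : Set Y} [hD' : SkDom D'] (c : X) (Φ : Y →L[ℝ] X) {y : Y} (hy : y ∈ D') (i : ℕ) (hi : 1 ≤ i) :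
    ‖iteratedFDerivWithin ℝ i (fun y => c + Φ y) D' y‖ ≤ (max 1 ‖Φ‖) ^ i := by
  obtain ⟨j, rfl⟩ : ∃ j, i = j + 1 := ⟨i - 1, by omega⟩
  rw [← norm_iteratedFDerivWithin_fderivWithin hD'.ud hy]
  have e : ∀ y ∈ D', fderivWithin ℝ (fun y => c + Φ y) D' y = Φ := fun y hy => by
    rw [fderivWithin_const_add]
    exact Φ.fderivWithin (hD'.ud y hy)
  rw [iteratedFDerivWithin_congr (f := fun _ => Φ) e hy j]
  rcases Nat.eq_zero_or_pos j with rfl | hj
  · simp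
  · rw [iteratedFDerivWithin_const_of_ne (by omega)]
    simp only [Pi.zero_apply, norm_zero]
    positivity

/-- **affine substitution** `y ↦ c + Φ y` mapping the domain `D'` into `D` -/
theorem sk_b_rel_aff [hD : SkDom D] {Y : Type} [NormedAddCommGroup Y] [NormedSpace ℝ Y] {D' : Set Y} [hD' : SkDom D'] {w : X → ℝ} {f : X → V} (hf : SkRel D w f)
    (hw : ∀ z ∈ D, 0 ≤ w z) (c : X) (Φ : Y →L[ℝ] X) (hm : ∀ y ∈ D', c + Φ y ∈ D) : SkRel D' (fun y => w (c + Φ y)) (fun y => f (c + Φ y)) := by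
  have hs : ContDiffOn ℝ ∞ (fun y => c + Φ y) D' := (contDiff_const.add Φ.contDiff).contDiffOn
  refine ⟨hf.smooth.comp hs hm, fun n => ?_⟩
  obtain ⟨C, hC0, hC⟩ := sk_b_rel_bound_le hf hw n
  refine ⟨n.factorial * C * (max 1 ‖Φ‖) ^ n, fun y hy => ?_⟩
  have h := norm_iteratedFDerivWithin_comp_le (𝕜 := ℝ) (g := f) (f := fun y => c + Φ y) (n := n) (N := ∞) (s := D') (t := D) hf.smooth hs
    (by exact_mod_cast le_top) hD.ud hD'.ud hm hy (C := C * w (c + Φ y)) (D := max 1 ‖Φ‖) (fun i hi => hC i hi _ (hm y hy))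
    (fun i h1 _ => sk_b_aff_iter c Φ hy i h1)
  calc _ ≤ _ := h
    _ = _ := by ring

theorem sk_b_W_aff {Y : Type} [NormedAddCommGroup Y] [NormedSpace ℝ Y] {B : ℝ} (hB : 0 ≤ B) (c : X) (Φ : Y →L[ℝ] X) (y : Y) : skbW B (c + Φ y) ≤ skbW B c * skbW (B * ‖Φ‖) y := by
  unfold skbW
  rw [← Real.exp_add]
  refine Real.exp_le_exp.2 ?_
  have h1 : ‖c + Φ y‖ ≤ ‖c‖ + ‖Φ‖ * ‖y‖ := (norm_add_le _ _).trans (add_le_add le_rfl (Φ.le_opNorm y))
  calc B * ‖c + Φ y‖ ≤ B * (‖c‖ + ‖Φ‖ * ‖y‖) := mul_le_mul_of_nonneg_left h1 hB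
    _ = _ := by ring

theorem sk_b_eg_aff [SkDom D] {Y : Type} [NormedAddCommGroup Y] [NormedSpace ℝ Y] {D' : Set Y} [SkDom D'] {f : X → V} (hf : SkEG D f)
    (c : X) (Φ : Y →L[ℝ] X) (hm : ∀ y ∈ D', c + Φ y ∈ D) : SkEG D' (fun y => f (c + Φ y)) := by
  obtain ⟨B, hB0, hB⟩ := sk_b_eg_rel hf
  exact ⟨B * ‖Φ‖, sk_b_rel_mono (sk_b_rel_aff hB (fun z _ => (sk_b_W_pos B z).le) c Φ hm) (skbW B c) (fun y _ => (sk_b_W_pos B _).le) fun y _ => sk_b_W_aff hB0 c Φ y⟩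

theorem sk_b_bd_aff [SkDom D] {Y : Type} [NormedAddCommGroup Y] [NormedSpace ℝ Y] {D' : Set Y} [SkDom D'] {f : X → V} (hf : SkBd D f)
    (c : X) (Φ : Y →L[ℝ] X) (hm : ∀ y ∈ D', c + Φ y ∈ D) : SkBd D' (fun y => f (c + Φ y)) :=
  sk_b_rel_aff hf (fun _ _ => zero_le_one) c Φ hm

theorem sk_b_lw_aff [SkDom D] {Y : Type} [NormedAddCommGroup Y] [NormedSpace ℝ Y] {D' : Set Y} [SkDom D'] {w : X → ℝ} (hw : SkLW D w)
    (c : X) (Φ : Y →L[ℝ] X) (hm : ∀ y ∈ D', c + Φ y ∈ D) : SkLW D' (fun y => w (c + Φ y)) :=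
  ⟨fun y hy => hw.pos _ (hm y hy), sk_b_rel_aff hw.rel (fun z hz => (hw.pos z hz).le) c Φ hm⟩

/-- chain rule for an affine substitution -/
theorem sk_b_aff_hasFDeriv {Y : Type} [NormedAddCommGroup Y] [NormedSpace ℝ Y] {D' : Set Y} {f : X → V} (hf : DifferentiableOn ℝ f D)
    (c : X) (Φ : Y →L[ℝ] X) (hm : ∀ y ∈ D', c + Φ y ∈ D) {y : Y} (hy : y ∈ D') :
    HasFDerivWithinAt (fun y => f (c + Φ y)) ((fderivWithin ℝ f D (c + Φ y)).comp Φ) D' y :=
  (hf _ (hm y hy)).hasFDerivWithinAt.comp y (Φ.hasFDerivWithinAt.const_add c) hm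

theorem sk_b_aff_fderiv {Y : Type} [NormedAddCommGroup Y] [NormedSpace ℝ Y] {D' : Set Y} [hD' : SkDom D'] {f : X → V} (hf : DifferentiableOn ℝ f D)
    (c : X) (Φ : Y →L[ℝ] X) (hm : ∀ y ∈ D', c + Φ y ∈ D) {y : Y} (hy : y ∈ D') :
    fderivWithin ℝ (fun y => f (c + Φ y)) D' y = (fderivWithin ℝ f D (c + Φ y)).comp Φ :=
  (sk_b_aff_hasFDeriv hf c Φ hm hy).fderivWithin (hD'.ud y hy)

theorem sk_b_aff_D {Y : Type} [NormedAddCommGroup Y] [NormedSpace ℝ Y] {D' : Set Y} [hD' : SkDom D'] {f : X → V} (hf : DifferentiableOn ℝ f D)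
    (c : X) (Φ : Y →L[ℝ] X) (hm : ∀ y ∈ D', c + Φ y ∈ D) {y : Y} (hy : y ∈ D') (e : Y) :
    skD D' e (fun y => f (c + Φ y)) y = skD D (Φ e) f (c + Φ y) := by
  unfold skD
  rw [sk_b_aff_fderiv hf c Φ hm hy]
  rfl

theorem sk_b_tame_aff [SkDom D] {Y : Type} [NormedAddCommGroup Y] [NormedSpace ℝ Y] {D' : Set Y} [SkDom D'] {F : X → ℝ} (hF : SkTame D F)
    (c : X) (Φ : Y →L[ℝ] X) (hm : ∀ y ∈ D', c + Φ y ∈ D) : SkTame D' (fun y => F (c + Φ y)) := by
  refine ⟨hF.smooth.comp (contDiff_const.add Φ.contDiff).contDiffOn hm, ?_⟩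
  have h := sk_b_bd_clm ((ContinuousLinearMap.compL ℝ Y X ℝ).flip Φ) (sk_b_bd_aff hF.bd c Φ hm)
  exact sk_b_rel_congr h fun y hy => sk_b_aff_fderiv (sk_b_tame_diff hF) c Φ hm hy

/-- restriction to a smaller domain -/
theorem sk_b_rel_restrict [SkDom D] {D' : Set X} [SkDom D'] {w : X → ℝ} {f : X → V} (hf : SkRel D w f) (hw : ∀ z ∈ D, 0 ≤ w z) (h : D' ⊆ D) : SkRel D' w f := by
  have := sk_b_rel_aff (D' := D') hf hw 0 (ContinuousLinearMap.id ℝ X) (fun y hy => by simpa using h hy)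
  simpa using this

theorem sk_b_tame_restrict [SkDom D] {D' : Set X} [SkDom D'] {F : X → ℝ} (hF : SkTame D F) (h : D' ⊆ D) : SkTame D' F := by
  have := sk_b_tame_aff (D' := D') hF 0 (ContinuousLinearMap.id ℝ X) (fun y hy => by simpa using h hy)
  simpa using this

/-! ## coordinates -/

theorem sk_b_tame_lin {κ : Type} [Fintype κ] {D : Set (κ → ℝ)} [SkDom D] (a : κ → ℝ) : SkTame D (fun z : κ → ℝ => ∑ k, a k * z k) := by
  have := sk_b_tame_clm (D := D) (∑ k, a k • ContinuousLinearMap.proj (R := ℝ) (φ := fun _ : κ => ℝ) k)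
  simpa using this

/-- the orthant -/
def skO (κ : Type) : Set (κ → ℝ) := {v | ∀ k, 0 ≤ v k}

theorem sk_b_O_eqns_cite : True := by
  have := @skO.eq_1
  trivial

instance sk_b_dom_O (κ : Type) [Fintype κ] : SkDom (skO κ) := by
  refine sk_b_dom_of_interior (fun x hx y hy a b ha hb _ k => ?_) ⟨fun _ => 1, ?_⟩
  · have := hx k
    have := hy k
    simp only [Pi.add_apply, Pi.smul_apply, smul_eq_mul]
    positivity
  · rw [mem_interior]
    refine ⟨Metric.ball (fun _ => 1) 1, fun y hy k => ?_, Metric.isOpen_ball, Metric.mem_ball_self one_pos⟩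
    have h1 : dist (y k) 1 < 1 := lt_of_le_of_lt (dist_le_pi_dist y (fun _ => (1 : ℝ)) k) hy
    rw [Real.dist_eq] at h1
    linarith [(abs_lt.1 h1).1]

end Claimed.Agent.R286
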