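import Claimed.Agent.R286.Base.Rel
import Claimed.Agent.R286.Base.Kit

/-!
# Row 286 (S0533), BASE library, file 2: ONE GAUSSIAN STEP, WITH MOVING VARIANCES      (helper11; prefix `sk_b_`)

`X` normed space, `D ⊆ X` a domain (`[SkDom D]`).  PARAMETERS ARE COORDINATES of `X` (e.g. `X = ℝ × (S → ℝ)`, `D = Icc 0 1 ×ˢ univ`; no parameter: `X = S → ℝ`, `D = univ`).
* `skbG ι = Measure.pi fun _ => gaussianReal 0 1`      (IS `ghStd ι`, by `rfl`)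
* `σ : SkSt X ι`   one step: features `σ.Φ : (ι → ℝ) →L X`, variances of the drivers `σ.var x = σ.c + σ.l x` (AFFINE in the point, i.e. in the parameters)
* `σ.Ok D`         `D + range Φ ⊆ D`, `σ.var ≥ 0` on `D` (ZERO ALLOWED), `σ.l ∘ σ.Φ = 0`
* `skS σ f x = ∫ f (x + σ.Φ (√(σ.var x) * g)) dγ(g)`
* `skGen D σ f = fderivWithin f D + ∑ k, (1/2) (∂²f in the direction Φ e_k) • (k-th coordinate of σ.l)`      ("space-time gradient")
MAIN FACTS
* `sk_b_S_hasFDeriv`   `D (S f) = S (skGen f)` WITHIN `D`: derivative in the base point AND heat equation in the parameters, jointly, one sided at the boundary, zero variances allowed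
* `sk_b_S_rel/eg/bd/lw/tame`   the classes are preserved
* `sk_b_S_ibp`         Gaussian integration by parts against a driver
* `sk_b_S_add`         semigroup
-/

set_option autoImplicit false
set_option linter.unusedSectionVars false

namespace Claimed.Agent.R286

open MeasureTheory ProbabilityTheory
open scoped ContDiff
open Finset

variable {X : Type} [NormedAddCommGroup X] [NormedSpace ℝ X] {ι : Type} [Fintype ι] {V : Type} [NormedAddCommGroup V] [NormedSpace ℝ V] {D : Set X}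

/-- the standard Gaussian measure -/
noncomputable def skbG (ι : Type) [Fintype ι] : Measure (ι → ℝ) := Measure.pi fun _ => gaussianReal 0 1

/-- the standard deviations of the variances `v` -/
noncomputable def skSd (v : ι → ℝ) : ι → ℝ := fun k => Real.sqrt (v k)

/-- one Gaussian step -/
structure SkSt (X ι : Type) [NormedAddCommGroup X] [NormedSpace ℝ X] where
  Φ : (ι → ℝ) →L[ℝ] X
  c : ι → ℝ
  l : X →L[ℝ] (ι → ℝ)

/-- the variances of the drivers at the point `x` -/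
noncomputable def SkSt.var (σ : SkSt X ι) (x : X) : ι → ℝ := σ.c + σ.l x

/-- the direction of the feature `k` -/
noncomputable def SkSt.dir [DecidableEq ι] (σ : SkSt X ι) (k : ι) : X := σ.Φ (Pi.single k 1)

/-- validity of a step on the domain `D` -/
structure SkSt.Ok (σ : SkSt X ι) (D : Set X) : Prop where
  inv : ∀ x ∈ D, ∀ y, x + σ.Φ y ∈ D
  nonneg : ∀ x ∈ D, ∀ k, 0 ≤ σ.var x k
  ker : ∀ y, σ.l (σ.Φ y) = 0

/-- a step with a fixed linear map: the increment is `A g` -/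
noncomputable def skStA (A : (ι → ℝ) →L[ℝ] X) : SkSt X ι := ⟨A, fun _ => 1, 0⟩

/-- a step with features `Φ` and fixed variances `v`: the increment is `Φ (√v * g)` -/
noncomputable def skStF (Φ : (ι → ℝ) →L[ℝ] X) (v : ι → ℝ) : SkSt X ι := ⟨Φ, v, 0⟩

/-- a step on `P × E`: the parameter `θ : P` is not moved, the increment of the field is `Φ (√(c + l θ) * g)` -/
noncomputable def skStP {P E : Type} [NormedAddCommGroup P] [NormedSpace ℝ P] [NormedAddCommGroup E] [NormedSpace ℝ E] (Φ : (ι → ℝ) →L[ℝ] E) (c : ι → ℝ) (l : P →L[ℝ] (ι → ℝ)) :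
    SkSt (P × E) ι := ⟨(ContinuousLinearMap.inr ℝ P E).comp Φ, c, l.comp (ContinuousLinearMap.fst ℝ P E)⟩

/-- the Gaussian average over one step -/
noncomputable def skS (σ : SkSt X ι) (f : X → V) (x : X) : V := ∫ g, f (x + σ.Φ (skSd (σ.var x) * g)) ∂skbG ι

/-- the "space-time gradient": derivative within `D` + heat terms in the directions which move the variances -/
noncomputable def skGen [DecidableEq ι] (D : Set X) (σ : SkSt X ι) (f : X → V) (x : X) : X →L[ℝ] V :=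
  fderivWithin ℝ f D x + ∑ k, ((ContinuousLinearMap.proj k : (ι → ℝ) →L[ℝ] ℝ).comp σ.l).smulRight ((1 / 2 : ℝ) • skD D (σ.dir k) (skD D (σ.dir k) f) x)

theorem sk_b_step_eqns_cite : True := by
  have := @skbG.eq_1; have := @skSd.eq_1; have := @SkSt.var.eq_1; have := @SkSt.dir.eq_1; have := @skStA.eq_1; have := @skStF.eq_1; have := @skStP.eq_1
  have := @skS.eq_1; have := @skGen.eq_1
  trivial

instance sk_b_G_prob : IsProbabilityMeasure (skbG ι) := by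
  unfold skbG
  infer_instance

/-! ## validity of the standard steps -/

theorem sk_b_StA_ok (A : (ι → ℝ) →L[ℝ] X) : (skStA A).Ok Set.univ :=
  ⟨fun _ _ _ => Set.mem_univ _, fun _ _ _ => by simp [skStA, SkSt.var], fun _ => by simp [skStA]⟩

theorem sk_b_StF_ok (Φ : (ι → ℝ) →L[ℝ] X) {v : ι → ℝ} (hv : ∀ k, 0 ≤ v k) : (skStF Φ v).Ok Set.univ :=
  ⟨fun _ _ _ => Set.mem_univ _, fun _ _ k => by simpa [skStF, SkSt.var] using hv k, fun _ => by simp [skStF]⟩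

theorem sk_b_StP_ok {P E : Type} [NormedAddCommGroup P] [NormedSpace ℝ P] [NormedAddCommGroup E] [NormedSpace ℝ E] (Φ : (ι → ℝ) →L[ℝ] E) (c : ι → ℝ) (l : P →L[ℝ] (ι → ℝ))
    {Θ : Set P} (h : ∀ θ ∈ Θ, ∀ k, 0 ≤ c k + l θ k) : (skStP Φ c l).Ok (Θ ×ˢ (Set.univ : Set E)) := by
  refine ⟨fun x hx y => ?_, fun x hx k => ?_, fun y => ?_⟩
  · simpa [skStP] using hx.1
  · simpa [skStP, SkSt.var] using h x.1 hx.1 k
  · simp [skStP]

theorem sk_b_S_StA (A : (ι → ℝ) →L[ℝ] X) (f : X → V) (x : X) : skS (skStA A) f x = ∫ g, f (x + A g) ∂skbG ι := by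
  have : ∀ g : ι → ℝ, skSd ((skStA A).var x) * g = g := fun g => by
    funext k
    simp [skSd, skStA, SkSt.var]
  unfold skS
  simp only [this]
  rfl

theorem sk_b_S_StF (Φ : (ι → ℝ) →L[ℝ] X) (v : ι → ℝ) (f : X → V) (x : X) : skS (skStF Φ v) f x = ∫ g, f (x + Φ (skSd v * g)) ∂skbG ι := by
  unfold skS
  simp [skStF, SkSt.var]

theorem sk_b_S_StP {P E : Type} [NormedAddCommGroup P] [NormedSpace ℝ P] [NormedAddCommGroup E] [NormedSpace ℝ E] (Φ : (ι → ℝ) →L[ℝ] E) (c : ι → ℝ) (l : P →L[ℝ] (ι → ℝ))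
    (f : P × E → V) (θ : P) (z : E) : skS (skStP Φ c l) f (θ, z) = ∫ g, f (θ, z + Φ (skSd (c + l θ) * g)) ∂skbG ι := by
  unfold skS
  simp [skStP, SkSt.var]

/-! ## integrability -/

theorem sk_b_G_int_W1 (B : ℝ) : Integrable (fun x : ℝ => Real.exp (B * |x|)) (gaussianReal 0 1) := by
  have h1 := integrable_exp_mul_gaussianReal (μ := 0) (v := 1) B
  have h2 := integrable_exp_mul_gaussianReal (μ := 0) (v := 1) (-B)
  refine (h1.add h2).mono' (by fun_prop) (ae_of_all _ fun x => ?_)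
  rw [Real.norm_eq_abs, abs_of_pos (Real.exp_pos _)]
  simp only [Pi.add_apply]
  rcases abs_cases x with ⟨h, -⟩ | ⟨h, -⟩ <;> rw [h]
  · linarith [Real.exp_pos (-B * x)]
  · have : B * -x = -B * x := by ring
    rw [this]
    linarith [Real.exp_pos (B * x)]

/-- the exponential weights are integrable -/
theorem sk_b_G_int_W (B : ℝ) : Integrable (skbW B) (skbG ι) := by
  have h := Integrable.fintype_prod (μ := fun _ : ι => gaussianReal 0 1) (f := fun _ x => Real.exp (|B| * |x|)) fun _ => sk_b_G_int_W1 |B|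
  refine h.mono' (sk_b_W_cont B).aestronglyMeasurable (ae_of_all _ fun g => ?_)
  rw [Real.norm_eq_abs, abs_of_pos (sk_b_W_pos B g), ← Real.exp_sum]
  unfold skbW
  refine Real.exp_le_exp.2 ?_
  rw [← mul_sum]
  have h1 : ‖g‖ ≤ ∑ k, |g k| := (pi_norm_le_iff_of_nonneg (sum_nonneg fun k _ => abs_nonneg _)).2 fun k =>
    single_le_sum (f := fun k => |g k|) (fun j _ => abs_nonneg _) (mem_univ k)
  calc B * ‖g‖ ≤ |B| * ‖g‖ := mul_le_mul_of_nonneg_right (le_abs_self B) (norm_nonneg g)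
    _ ≤ _ := mul_le_mul_of_nonneg_left h1 (abs_nonneg B)

theorem sk_b_G_int {f : (ι → ℝ) → V} (hm : AEStronglyMeasurable f (skbG ι)) (A B : ℝ) (h : ∀ g, ‖f g‖ ≤ A * skbW B g) : Integrable f (skbG ι) :=
  ((sk_b_G_int_W B).const_mul A).mono' hm (ae_of_all _ h)

theorem sk_b_W_shift {B : ℝ} (hB : 0 ≤ B) (x : X) (Φ : (ι → ℝ) →L[ℝ] X) (a g : ι → ℝ) : skbW B (x + Φ (a * g)) ≤ skbW B x * skbW (B * ‖Φ‖ * ‖a‖) g := by
  unfold skbW
  rw [← Real.exp_add]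
  refine Real.exp_le_exp.2 ?_
  have h1 : ‖x + Φ (a * g)‖ ≤ ‖x‖ + ‖Φ‖ * (‖a‖ * ‖g‖) :=
    (norm_add_le _ _).trans (add_le_add le_rfl ((Φ.le_opNorm _).trans (mul_le_mul_of_nonneg_left (norm_mul_le _ _) (norm_nonneg _))))
  calc B * ‖x + Φ (a * g)‖ ≤ B * (‖x‖ + ‖Φ‖ * (‖a‖ * ‖g‖)) := mul_le_mul_of_nonneg_left h1 hB
    _ = _ := by ring

/-- continuity of the integrand -/
theorem sk_b_S_cont_int {σ : SkSt X ι} (hσ : σ.Ok D) {f : X → V} (hc : ContinuousOn f D) {x : X} (hx : x ∈ D) (a : ι → ℝ) : Continuous fun g => f (x + σ.Φ (a * g)) :=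
  hc.comp_continuous (by fun_prop) fun g => hσ.inv x hx _

theorem sk_b_S_int' {σ : SkSt X ι} (hσ : σ.Ok D) {f : X → V} (hc : ContinuousOn f D) {A B : ℝ} (hA : 0 ≤ A) (hB : 0 ≤ B) (h : ∀ z ∈ D, ‖f z‖ ≤ A * skbW B z)
    {x : X} (hx : x ∈ D) (a : ι → ℝ) : Integrable (fun g => f (x + σ.Φ (a * g))) (skbG ι) := by
  refine sk_b_G_int (sk_b_S_cont_int hσ hc hx a).aestronglyMeasurable (A * skbW B x) (B * ‖σ.Φ‖ * ‖a‖) fun g => (h _ (hσ.inv x hx _)).trans ?_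
  rw [mul_assoc]
  exact mul_le_mul_of_nonneg_left (sk_b_W_shift hB x σ.Φ a g) hA

/-- integrability -/
theorem sk_b_S_int {σ : SkSt X ι} (hσ : σ.Ok D) {f : X → V} (hf : SkEG D f) {x : X} (hx : x ∈ D) (a : ι → ℝ) : Integrable (fun g => f (x + σ.Φ (a * g))) (skbG ι) := by
  obtain ⟨A, B, hA, hB, h⟩ := sk_b_eg_norm_le hf
  exact sk_b_S_int' hσ (sk_b_eg_cont hf) hA hB h hx a

/-! ## the diagonal maps -/

/-- the diagonal map `g ↦ a * g` -/
noncomputable def skDg (a : ι → ℝ) : (ι → ℝ) →L[ℝ] (ι → ℝ) := ContinuousLinearMap.pi fun k => a k • ContinuousLinearMap.proj k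

theorem sk_b_Dg_apply (a g : ι → ℝ) : skDg a g = a * g := by
  funext k
  simp [skDg]

theorem sk_b_Dg_cont : Continuous (skDg : (ι → ℝ) → ((ι → ℝ) →L[ℝ] (ι → ℝ))) := by
  rw [continuous_clm_apply]
  intro g
  simp only [sk_b_Dg_apply]
  fun_prop

/-- the linear map `(x, a) ↦ x + Φ (a * g)` -/
noncomputable def skLg (Φ : (ι → ℝ) →L[ℝ] X) (g : ι → ℝ) : X × (ι → ℝ) →L[ℝ] X :=
  ContinuousLinearMap.fst ℝ X (ι → ℝ) + (Φ.comp (skDg g)).comp (ContinuousLinearMap.snd ℝ X (ι → ℝ))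

theorem sk_b_Lg_apply (Φ : (ι → ℝ) →L[ℝ] X) (g : ι → ℝ) (p : X × (ι → ℝ)) : skLg Φ g p = p.1 + Φ (p.2 * g) := by
  simp [skLg, sk_b_Dg_apply, mul_comm]

theorem sk_b_Lg_cont (Φ : (ι → ℝ) →L[ℝ] X) : Continuous (skLg Φ) := by
  unfold skLg
  exact continuous_const.add ((continuous_const.clm_comp sk_b_Dg_cont).clm_comp continuous_const)

theorem sk_b_Lg_norm (Φ : (ι → ℝ) →L[ℝ] X) (g : ι → ℝ) : ‖skLg Φ g‖ ≤ 1 + ‖Φ‖ * ‖g‖ := by
  refine ContinuousLinearMap.opNorm_le_bound _ (by positivity) fun p => ?_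
  rw [sk_b_Lg_apply]
  have h1 : ‖Φ (p.2 * g)‖ ≤ ‖Φ‖ * (‖p.2‖ * ‖g‖) := (Φ.le_opNorm _).trans (mul_le_mul_of_nonneg_left (norm_mul_le _ _) (norm_nonneg _))
  have h2 : ‖p.1‖ ≤ ‖p‖ := norm_fst_le p
  have h3 : ‖p.2‖ ≤ ‖p‖ := norm_snd_le p
  have h4 : ‖Φ‖ * (‖p.2‖ * ‖g‖) ≤ ‖Φ‖ * (‖p‖ * ‖g‖) := by gcongr
  calc ‖p.1 + Φ (p.2 * g)‖ ≤ ‖p.1‖ + ‖Φ (p.2 * g)‖ := norm_add_le _ _
    _ ≤ ‖p‖ + ‖Φ‖ * (‖p‖ * ‖g‖) := by linarith
    _ = _ := by ring

/-- the average as a function of the base point and of the STANDARD DEVIATIONS -/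
noncomputable def skbGa (Φ : (ι → ℝ) →L[ℝ] X) (f : X → V) (p : X × (ι → ℝ)) : V := ∫ g, f (p.1 + Φ (p.2 * g)) ∂skbG ι

theorem sk_b_Ga_hasFDeriv0 [CompleteSpace V] [hD : SkDom D] {σ : SkSt X ι} (hσ : σ.Ok D) {f : X → V} (hf : SkEG D f) {p : X × (ι → ℝ)} (hp : p ∈ D ×ˢ (Set.univ : Set (ι → ℝ))) :
    HasFDerivWithinAt (skbGa σ.Φ f) (∫ g, (fderivWithin ℝ f D (p.1 + σ.Φ (p.2 * g))).comp (skLg σ.Φ g) ∂skbG ι) (D ×ˢ Set.univ) p := by
  obtain ⟨A, B, hA, hB, hb⟩ := sk_b_eg_norm_le (sk_b_eg_fderiv hf)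
  have hc := sk_b_eg_cont hf
  have hc' := sk_b_eg_cont (sk_b_eg_fderiv hf)
  unfold skbGa
  refine sk_b_within_integral (hD.cvx.prod convex_univ) hp one_pos (F := fun q g => f (q.1 + σ.Φ (q.2 * g)))
    (F' := fun q g => (fderivWithin ℝ f D (q.1 + σ.Φ (q.2 * g))).comp (skLg σ.Φ g))
    (bound := fun g => A * skbW B p.1 * Real.exp B * skbW (B * ‖σ.Φ‖ * (‖p.2‖ + 1) + ‖σ.Φ‖) g) ?_ (sk_b_S_int hσ hf hp.1 _) ?_ ?_ ?_ ?_
  · exact fun q hq => (sk_b_S_cont_int hσ hc hq.1.1 _).aestronglyMeasurable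
  · exact ((sk_b_S_cont_int hσ hc' hp.1 _).clm_comp (sk_b_Lg_cont σ.Φ)).aestronglyMeasurable
  · refine ae_of_all _ fun g q hq => ?_
    have hq1 : ‖q - p‖ < 1 := by simpa [dist_eq_norm] using hq.2
    have hq2 : ‖q.1‖ ≤ ‖p.1‖ + 1 := by
      have h3 := norm_sub_norm_le q.1 p.1
      have h4 : ‖q.1 - p.1‖ ≤ ‖q - p‖ := norm_fst_le (q - p)
      linarith
    have hq3 : ‖q.2‖ ≤ ‖p.2‖ + 1 := by
      have h3 := norm_sub_norm_le q.2 p.2
      have h4 : ‖q.2 - p.2‖ ≤ ‖q - p‖ := norm_snd_le (q - p)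
      linarith
    have h1 := sk_b_W_shift hB q.1 σ.Φ q.2 g
    have h2 : skbW B q.1 ≤ skbW B p.1 * Real.exp B := by
      unfold skbW
      rw [← Real.exp_add]
      refine Real.exp_le_exp.2 ?_
      nlinarith
    have h5 : skbW (B * ‖σ.Φ‖ * ‖q.2‖) g ≤ skbW (B * ‖σ.Φ‖ * (‖p.2‖ + 1)) g := sk_b_W_mono (mul_le_mul_of_nonneg_left hq3 (by positivity)) g
    have h6 : 1 + ‖σ.Φ‖ * ‖g‖ ≤ skbW ‖σ.Φ‖ g := by
      unfold skbW
      linarith [Real.add_one_le_exp (‖σ.Φ‖ * ‖g‖)]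
    calc ‖(fderivWithin ℝ f D (q.1 + σ.Φ (q.2 * g))).comp (skLg σ.Φ g)‖ ≤ ‖fderivWithin ℝ f D (q.1 + σ.Φ (q.2 * g))‖ * ‖skLg σ.Φ g‖ := ContinuousLinearMap.opNorm_comp_le _ _
      _ ≤ (A * (skbW B p.1 * Real.exp B * skbW (B * ‖σ.Φ‖ * (‖p.2‖ + 1)) g)) * skbW ‖σ.Φ‖ g := by
          refine mul_le_mul ((hb _ (hσ.inv _ hq.1.1 _)).trans (mul_le_mul_of_nonneg_left (h1.trans ?_) hA)) ((sk_b_Lg_norm _ _).trans h6) (norm_nonneg _) ?_
          · exact mul_le_mul h2 h5 (sk_b_W_pos _ _).le (mul_nonneg (sk_b_W_pos _ _).le (Real.exp_pos _).le)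
          · exact mul_nonneg hA (mul_nonneg (mul_nonneg (sk_b_W_pos _ _).le (Real.exp_pos _).le) (sk_b_W_pos _ _).le)
      _ = _ := by
          rw [← sk_b_W_mul]
          ring
  · exact (sk_b_G_int_W _).const_mul _
  · refine ae_of_all _ fun g q hq => ?_
    have h1 : HasFDerivWithinAt f (fderivWithin ℝ f D (skLg σ.Φ g q)) D (skLg σ.Φ g q) := by
      refine sk_b_eg_hasFDeriv hf ?_
      rw [sk_b_Lg_apply]
      exact hσ.inv _ hq.1.1 _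
    have h2 := h1.comp q (skLg σ.Φ g).hasFDerivWithinAt (t := D) (s := D ×ˢ (Set.univ : Set (ι → ℝ))) (fun r hr => by
      rw [sk_b_Lg_apply]
      exact hσ.inv _ hr.1 _)
    simpa only [Function.comp_def, sk_b_Lg_apply] using h2

/-! ## integration by parts -/

/-- the line derivative of the integrand -/
theorem sk_b_S_line [DecidableEq ι] {σ : SkSt X ι} (hσ : σ.Ok D) {h : X → V} (hh : DifferentiableOn ℝ h D) {x : X} (hx : x ∈ D) (a : ι → ℝ) (k : ι) (g : ι → ℝ) :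
    HasDerivAt (fun t : ℝ => h (x + σ.Φ (a * (g + t • Pi.single k (1 : ℝ))))) (a k • skD D (σ.dir k) h (x + σ.Φ (a * g))) 0 := by
  have hy : x + σ.Φ (a * g) ∈ D := hσ.inv x hx _
  have e : ∀ t : ℝ, x + σ.Φ (a * (g + t • Pi.single k (1 : ℝ))) = (x + σ.Φ (a * g)) + t • (a k • σ.dir k) := by
    intro t
    have : a * (g + t • Pi.single k (1 : ℝ)) = a * g + t • (a k • Pi.single k (1 : ℝ)) := by
      funext j
      by_cases hj : j = k
      · subst hj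
        simp
        ring
      · simp [hj]
    rw [this, map_add, map_smul, map_smul, add_assoc]
    rfl
  simp only [e]
  have h1 : HasDerivAt (fun t : ℝ => (x + σ.Φ (a * g)) + t • (a k • σ.dir k)) (a k • σ.dir k) 0 := by
    simpa using ((hasDerivAt_id (0 : ℝ)).smul_const (a k • σ.dir k)).const_add (x + σ.Φ (a * g))
  have h2 : HasFDerivWithinAt h (fderivWithin ℝ h D (x + σ.Φ (a * g))) D ((x + σ.Φ (a * g)) + (0 : ℝ) • (a k • σ.dir k)) := by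
    simpa using (hh _ hy).hasFDerivWithinAt
  have h3 := h2.comp_hasDerivWithinAt (0 : ℝ) h1.hasDerivWithinAt (s := Set.univ) (fun t _ => by
    have : t • (a k • σ.dir k) = σ.Φ (t • (a k • Pi.single k (1 : ℝ))) := by
      rw [map_smul, map_smul]
      rfl
    rw [this]
    exact hσ.inv _ hy _)
  rw [hasDerivWithinAt_univ] at h3
  simpa [skD, Function.comp_def] using h3

/-- integration by parts, standard deviations `a` -/
theorem sk_b_Ga_ibp [DecidableEq ι] [CompleteSpace V] [SkDom D] {σ : SkSt X ι} (hσ : σ.Ok D) {h : X → V} (hh : SkEG D h) {x : X} (hx : x ∈ D) (a : ι → ℝ) (k : ι) :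
    ∫ g, g k • h (x + σ.Φ (a * g)) ∂skbG ι = a k • ∫ g, skD D (σ.dir k) h (x + σ.Φ (a * g)) ∂skbG ι := by
  obtain ⟨A₁, B₁, hA₁, hB₁, hb₁⟩ := sk_b_eg_norm_le hh
  obtain ⟨A₂, B₂, hA₂, hB₂, hb₂⟩ := sk_b_eg_norm_le (sk_b_eg_D (σ.dir k) hh)
  rw [← integral_smul]
  have hW : ∀ g : ι → ℝ, skbW (max B₁ B₂) (x + σ.Φ (a * g)) ≤ skbW (max B₁ B₂) x * Real.exp (max B₁ B₂ * ‖σ.Φ‖ * ‖a‖ * ‖g‖) :=
    fun g => sk_b_W_shift (le_max_of_le_left hB₁) x σ.Φ a g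
  refine sk_b_ibp_pi k (ψ := fun g => h (x + σ.Φ (a * g))) (ψ' := fun g => a k • skD D (σ.dir k) h (x + σ.Φ (a * g)))
    (A := (A₁ + |a k| * A₂) * skbW (max B₁ B₂) x) (B := max B₁ B₂ * ‖σ.Φ‖ * ‖a‖)
    (sk_b_S_cont_int hσ (sk_b_eg_cont hh) hx a) ((sk_b_S_cont_int hσ (sk_b_eg_cont (sk_b_eg_D (σ.dir k) hh)) hx a).const_smul _)
    (fun g => sk_b_S_line hσ (sk_b_eg_diff hh) hx a k g) (fun g => ?_) (fun g => ?_)
  · have h1 := hb₁ _ (hσ.inv x hx (a * g))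
    have h2 : skbW B₁ (x + σ.Φ (a * g)) ≤ skbW (max B₁ B₂) (x + σ.Φ (a * g)) := sk_b_W_mono (le_max_left _ _) _
    have h3 := hW g
    have h4 : 0 ≤ |a k| * A₂ := by positivity
    have h5 : 0 ≤ skbW (max B₁ B₂) x * Real.exp (max B₁ B₂ * ‖σ.Φ‖ * ‖a‖ * ‖g‖) := mul_nonneg (sk_b_W_pos _ _).le (Real.exp_pos _).le
    calc ‖h (x + σ.Φ (a * g))‖ ≤ A₁ * skbW B₁ (x + σ.Φ (a * g)) := h1
      _ ≤ A₁ * (skbW (max B₁ B₂) x * Real.exp (max B₁ B₂ * ‖σ.Φ‖ * ‖a‖ * ‖g‖)) := mul_le_mul_of_nonneg_left (h2.trans h3) hA₁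
      _ ≤ (A₁ + |a k| * A₂) * (skbW (max B₁ B₂) x * Real.exp (max B₁ B₂ * ‖σ.Φ‖ * ‖a‖ * ‖g‖)) := mul_le_mul_of_nonneg_right (by linarith) h5
      _ = _ := by ring
  · have h1 := hb₂ _ (hσ.inv x hx (a * g))
    have h2 : skbW B₂ (x + σ.Φ (a * g)) ≤ skbW (max B₁ B₂) (x + σ.Φ (a * g)) := sk_b_W_mono (le_max_right _ _) _
    have h3 := hW g
    have h5 : 0 ≤ skbW (max B₁ B₂) x * Real.exp (max B₁ B₂ * ‖σ.Φ‖ * ‖a‖ * ‖g‖) := mul_nonneg (sk_b_W_pos _ _).le (Real.exp_pos _).le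
    rw [norm_smul, Real.norm_eq_abs]
    calc |a k| * ‖skD D (σ.dir k) h (x + σ.Φ (a * g))‖ ≤ |a k| * (A₂ * skbW B₂ (x + σ.Φ (a * g))) := mul_le_mul_of_nonneg_left h1 (abs_nonneg _)
      _ ≤ |a k| * (A₂ * (skbW (max B₁ B₂) x * Real.exp (max B₁ B₂ * ‖σ.Φ‖ * ‖a‖ * ‖g‖))) :=
          mul_le_mul_of_nonneg_left (mul_le_mul_of_nonneg_left (h2.trans h3) hA₂) (abs_nonneg _)
      _ = (|a k| * A₂) * (skbW (max B₁ B₂) x * Real.exp (max B₁ B₂ * ‖σ.Φ‖ * ‖a‖ * ‖g‖)) := by ring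
      _ ≤ (A₁ + |a k| * A₂) * (skbW (max B₁ B₂) x * Real.exp (max B₁ B₂ * ‖σ.Φ‖ * ‖a‖ * ‖g‖)) := mul_le_mul_of_nonneg_right (by linarith) h5
      _ = _ := by ring

theorem sk_b_Ga_int_mul {σ : SkSt X ι} (hσ : σ.Ok D) {h : X → V} (hh : SkEG D h) {x : X} (hx : x ∈ D) (a : ι → ℝ) (k : ι) :
    Integrable (fun g => g k • h (x + σ.Φ (a * g))) (skbG ι) := by
  obtain ⟨A, B, hA, hB, hb⟩ := sk_b_eg_norm_le hh
  refine sk_b_G_int (((continuous_apply k).smul (sk_b_S_cont_int hσ (sk_b_eg_cont hh) hx a)).aestronglyMeasurable) (A * skbW B x) (B * ‖σ.Φ‖ * ‖a‖ + 1) fun g => ?_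
  rw [norm_smul, ← sk_b_W_mul]
  have h1 : ‖g k‖ ≤ skbW 1 g := by
    unfold skbW
    rw [one_mul]
    exact (norm_le_pi_norm g k).trans (by linarith [Real.add_one_le_exp ‖g‖])
  have h2 := (hb _ (hσ.inv x hx (a * g))).trans (mul_le_mul_of_nonneg_left (sk_b_W_shift hB x σ.Φ a g) hA)
  calc ‖g k‖ * ‖h (x + σ.Φ (a * g))‖ ≤ skbW 1 g * (A * (skbW B x * skbW (B * ‖σ.Φ‖ * ‖a‖) g)) := mul_le_mul h1 h2 (norm_nonneg _) (sk_b_W_pos _ _).le
    _ = _ := by ring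

/-- **derivative in the base point and in the standard deviations** -/
theorem sk_b_Ga_hasFDeriv [DecidableEq ι] [CompleteSpace V] [SkDom D] {σ : SkSt X ι} (hσ : σ.Ok D) {f : X → V} (hf : SkEG D f) {p : X × (ι → ℝ)}
    (hp : p ∈ D ×ˢ (Set.univ : Set (ι → ℝ))) :
    HasFDerivWithinAt (skbGa σ.Φ f)
      ((skbGa σ.Φ (fderivWithin ℝ f D) p).comp (ContinuousLinearMap.fst ℝ X (ι → ℝ)) +
        ∑ k, ((ContinuousLinearMap.proj k : (ι → ℝ) →L[ℝ] ℝ).comp (ContinuousLinearMap.snd ℝ X (ι → ℝ))).smulRight (p.2 k • skbGa σ.Φ (skD D (σ.dir k) (skD D (σ.dir k) f)) p))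
      (D ×ˢ Set.univ) p := by
  refine (sk_b_Ga_hasFDeriv0 hσ hf hp).congr_fderiv ?_
  have hf' := sk_b_eg_fderiv hf
  have dec : ∀ g : ι → ℝ, (fderivWithin ℝ f D (p.1 + σ.Φ (p.2 * g))).comp (skLg σ.Φ g)
      = ((ContinuousLinearMap.compL ℝ (X × (ι → ℝ)) X V).flip (ContinuousLinearMap.fst ℝ X (ι → ℝ))) (fderivWithin ℝ f D (p.1 + σ.Φ (p.2 * g)))
        + ∑ k, (ContinuousLinearMap.smulRightL ℝ (X × (ι → ℝ)) V ((ContinuousLinearMap.proj k : (ι → ℝ) →L[ℝ] ℝ).comp (ContinuousLinearMap.snd ℝ X (ι → ℝ))))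
            (g k • skD D (σ.dir k) f (p.1 + σ.Φ (p.2 * g))) := by
    intro g
    refine ContinuousLinearMap.ext fun q => ?_
    have e1 : q.2 * g = ∑ k, (q.2 k * g k) • Pi.single k (1 : ℝ) := by
      funext j
      simp [Finset.sum_apply, Pi.single_apply]
    simp only [ContinuousLinearMap.comp_apply, sk_b_Lg_apply, map_add, add_apply, ContinuousLinearMap.flip_apply, ContinuousLinearMap.compL_apply,
      ContinuousLinearMap.coe_fst', FunLike.coe_sum, Finset.sum_apply]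
    congr 1
    rw [e1, map_sum, map_sum]
    refine Finset.sum_congr rfl fun k _ => ?_
    rw [map_smul, map_smul]
    simp [ContinuousLinearMap.smulRightL, skD, SkSt.dir, mul_smul]
    exact smul_comm _ _ _
  simp only [dec]
  rw [integral_add, integral_finsetSum, ContinuousLinearMap.integral_comp_comm]
  · congr 1
    refine Finset.sum_congr rfl fun k _ => ?_
    rw [ContinuousLinearMap.integral_comp_comm, sk_b_Ga_ibp hσ (sk_b_eg_D (σ.dir k) hf) hp.1]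
    · rfl
    · exact sk_b_Ga_int_mul hσ (sk_b_eg_D (σ.dir k) hf) hp.1 _ k
  · exact sk_b_S_int hσ hf' hp.1 _
  · exact fun k _ => ContinuousLinearMap.integrable_comp _ (sk_b_Ga_int_mul hσ (sk_b_eg_D (σ.dir k) hf) hp.1 _ k)
  · exact ContinuousLinearMap.integrable_comp _ (sk_b_S_int hσ hf' hp.1 _)
  · exact integrable_finsetSum _ fun k _ => ContinuousLinearMap.integrable_comp _ (sk_b_Ga_int_mul hσ (sk_b_eg_D (σ.dir k) hf) hp.1 _ k)

theorem sk_b_S_eq_Ga (σ : SkSt X ι) (f : X → V) (x : X) : skS σ f x = skbGa σ.Φ f (x, skSd (σ.var x)) := rfl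

theorem sk_b_S_Gen [DecidableEq ι] [CompleteSpace V] [SkDom D] {σ : SkSt X ι} (hσ : σ.Ok D) {f : X → V} (hf : SkEG D f) {x : X} (hx : x ∈ D) :
    skS σ (skGen D σ f) x = skS σ (fderivWithin ℝ f D) x
      + ∑ k, ((ContinuousLinearMap.proj k : (ι → ℝ) →L[ℝ] ℝ).comp σ.l).smulRight ((1 / 2 : ℝ) • skS σ (skD D (σ.dir k) (skD D (σ.dir k) f)) x) := by
  have hf' := sk_b_eg_fderiv hf
  have h2 : ∀ k, SkEG D (skD D (σ.dir k) (skD D (σ.dir k) f)) := fun k => sk_b_eg_D _ (sk_b_eg_D _ hf)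
  have e : ∀ y, skGen D σ f y = fderivWithin ℝ f D y + ∑ k, (ContinuousLinearMap.smulRightL ℝ X V ((ContinuousLinearMap.proj k : (ι → ℝ) →L[ℝ] ℝ).comp σ.l))
      ((1 / 2 : ℝ) • skD D (σ.dir k) (skD D (σ.dir k) f) y) := fun y => rfl
  unfold skS
  simp only [e]
  rw [integral_add, integral_finsetSum]
  · congr 1
    refine Finset.sum_congr rfl fun k _ => ?_
    rw [ContinuousLinearMap.integral_comp_comm, integral_smul]
    · rfl
    · exact (sk_b_S_int hσ (h2 k) hx _).smul _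
  · exact fun k _ => ContinuousLinearMap.integrable_comp _ ((sk_b_S_int hσ (h2 k) hx _).smul _)
  · exact sk_b_S_int hσ hf' hx _
  · exact integrable_finsetSum _ fun k _ => ContinuousLinearMap.integrable_comp _ ((sk_b_S_int hσ (h2 k) hx _).smul _)

/-- **THE DERIVATIVE OF ONE STEP**, jointly in the base point and in the parameters, within `D` -/
theorem sk_b_S_hasFDeriv [DecidableEq ι] [CompleteSpace V] [hD : SkDom D] {σ : SkSt X ι} (hσ : σ.Ok D) {f : X → V} (hf : SkEG D f) {x : X} (hx : x ∈ D) :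
    HasFDerivWithinAt (skS σ f) (skS σ (skGen D σ f) x) D x := by
  have h := sk_b_sqrt_subst hD.cvx (G := skbGa σ.Φ f) (L := skbGa σ.Φ (fderivWithin ℝ f D)) (H := fun k => skbGa σ.Φ (skD D (σ.dir k) (skD D (σ.dir k) f)))
    (fun p hp => sk_b_Ga_hasFDeriv hσ hf hp) (fun p hp => (sk_b_Ga_hasFDeriv hσ (sk_b_eg_fderiv hf) hp).continuousWithinAt)
    (fun k p hp => (sk_b_Ga_hasFDeriv hσ (sk_b_eg_D _ (sk_b_eg_D _ hf)) hp).continuousWithinAt) hx (hσ.nonneg x hx)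
  have hj : HasFDerivWithinAt (fun y => (y, σ.var y)) ((ContinuousLinearMap.id ℝ X).prod σ.l) D x := by
    refine (hasFDerivWithinAt_id x D).prodMk ?_
    unfold SkSt.var
    exact σ.l.hasFDerivWithinAt.const_add σ.c
  have hm : Set.MapsTo (fun y => (y, σ.var y)) D (D ×ˢ {w : ι → ℝ | ∀ k, 0 ≤ w k}) := fun y hy => ⟨hy, hσ.nonneg y hy⟩
  have h2 := h.comp x hj hm
  refine h2.congr_fderiv ?_
  rw [sk_b_S_Gen hσ hf hx]
  refine ContinuousLinearMap.ext fun q => ?_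
  simp [sk_b_S_eq_Ga]
  rfl

theorem sk_b_S_fderiv [DecidableEq ι] [CompleteSpace V] [hD : SkDom D] {σ : SkSt X ι} (hσ : σ.Ok D) {f : X → V} (hf : SkEG D f) {x : X} (hx : x ∈ D) :
    fderivWithin ℝ (skS σ f) D x = skS σ (skGen D σ f) x := (sk_b_S_hasFDeriv hσ hf hx).fderivWithin (hD.ud x hx)

/-! ## the classes are preserved -/

theorem sk_b_Gen_rel [DecidableEq ι] [SkDom D] (σ : SkSt X ι) {w : X → ℝ} {f : X → V} (hf : SkRel D w f) (hw0 : ∀ z ∈ D, 0 ≤ w z) : SkRel D w (skGen D σ f) := by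
  refine sk_b_rel_add' (sk_b_rel_fderiv hf) (sk_b_rel_sum _ (fun k _ => ?_) hw0) hw0
  exact sk_b_rel_clm (ContinuousLinearMap.smulRightL ℝ X V ((ContinuousLinearMap.proj k : (ι → ℝ) →L[ℝ] ℝ).comp σ.l))
    (sk_b_rel_smul_const (1 / 2 : ℝ) (sk_b_rel_D _ (sk_b_rel_D _ hf hw0) hw0) hw0) hw0

theorem sk_b_Gen_eg [DecidableEq ι] [SkDom D] (σ : SkSt X ι) {f : X → V} (hf : SkEG D f) : SkEG D (skGen D σ f) := by
  obtain ⟨B, hB⟩ := hf
  exact ⟨B, sk_b_Gen_rel σ hB fun z _ => (sk_b_W_pos _ z).le⟩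

theorem sk_b_Gen_bd [DecidableEq ι] [SkDom D] (σ : SkSt X ι) {f : X → V} (hf : SkBd D f) : SkBd D (skGen D σ f) := sk_b_Gen_rel σ hf fun _ _ => zero_le_one

theorem sk_b_eg_of_rel_le {w : X → ℝ} {f : X → V} (hf : SkRel D w f) (hw0 : ∀ z ∈ D, 0 ≤ w z) {A B : ℝ} (hw : ∀ z ∈ D, w z ≤ A * skbW B z) : SkEG D f :=
  ⟨B, sk_b_rel_mono hf A hw0 hw⟩

theorem sk_b_S_int_w {σ : SkSt X ι} (hσ : σ.Ok D) {w : X → ℝ} (hwc : ContinuousOn w D) (hw0 : ∀ z ∈ D, 0 ≤ w z) {A B : ℝ} (hw : ∀ z ∈ D, w z ≤ A * skbW B z)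
    {x : X} (hx : x ∈ D) (a : ι → ℝ) : Integrable (fun g => w (x + σ.Φ (a * g))) (skbG ι) := by
  have hA : 0 ≤ A := by
    have := (hw0 x hx).trans (hw x hx)
    have h1 := sk_b_W_pos B x
    by_contra hc
    nlinarith
  refine sk_b_S_int' hσ hwc hA (le_max_right B 0) (fun z hz => ?_) hx a
  rw [Real.norm_eq_abs, abs_of_nonneg (hw0 z hz)]
  exact (hw z hz).trans (mul_le_mul_of_nonneg_left (sk_b_W_mono (le_max_left _ _) z) hA)

theorem sk_b_S_aux [hD : SkDom D] {σ : SkSt X ι} (hσ : σ.Ok D) {w : X → ℝ} (hwc : ContinuousOn w D) (hw0 : ∀ z ∈ D, 0 ≤ w z) {A B : ℝ} (hw : ∀ z ∈ D, w z ≤ A * skbW B z) (n : ℕ) :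
    ∀ (V : Type) [NormedAddCommGroup V] [NormedSpace ℝ V] [CompleteSpace V] (f : X → V), SkRel D w f →
      ContDiffOn ℝ n (skS σ f) D ∧ ∃ C : ℝ, ∀ x ∈ D, ‖iteratedFDerivWithin ℝ n (skS σ f) D x‖ ≤ C * skS σ w x := by
  classical
  induction n with
  | zero =>
    intro V _ _ _ f hf
    have heg := sk_b_eg_of_rel_le hf hw0 hw
    refine ⟨?_, ?_⟩
    · rw [Nat.cast_zero, contDiffOn_zero]
      exact fun x hx => (sk_b_S_hasFDeriv hσ heg hx).continuousWithinAt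
    · obtain ⟨C, hC⟩ := sk_b_rel_norm_le hf
      refine ⟨C, fun x hx => ?_⟩
      rw [norm_iteratedFDerivWithin_zero]
      unfold skS
      rw [← integral_const_mul]
      refine (norm_integral_le_integral_norm _).trans ?_
      exact integral_mono_of_nonneg (ae_of_all _ fun g => norm_nonneg _) ((sk_b_S_int_w hσ hwc hw0 hw hx _).const_mul C) (ae_of_all _ fun g => hC _ (hσ.inv x hx _))
  | succ n ih =>
    intro V _ _ _ f hf
    have heg := sk_b_eg_of_rel_le hf hw0 hw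
    obtain ⟨h1, C, h2⟩ := ih _ (skGen D σ f) (sk_b_Gen_rel σ hf hw0)
    have e : ∀ x ∈ D, fderivWithin ℝ (skS σ f) D x = skS σ (skGen D σ f) x := fun x hx => sk_b_S_fderiv hσ heg hx
    refine ⟨?_, C, fun x hx => ?_⟩
    · rw [Nat.cast_succ, contDiffOn_succ_iff_fderivWithin hD.ud]
      exact ⟨fun x hx => (sk_b_S_hasFDeriv hσ heg hx).differentiableWithinAt, by simp, h1.congr e⟩
    · rw [← norm_iteratedFDerivWithin_fderivWithin hD.ud hx, iteratedFDerivWithin_congr e hx n]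
      exact h2 x hx

/-- **the weighted classes are preserved** -/
theorem sk_b_S_rel [CompleteSpace V] [SkDom D] {σ : SkSt X ι} (hσ : σ.Ok D) {w : X → ℝ} {f : X → V} (hf : SkRel D w f) (hwc : ContinuousOn w D) (hw0 : ∀ z ∈ D, 0 ≤ w z)
    {A B : ℝ} (hw : ∀ z ∈ D, w z ≤ A * skbW B z) : SkRel D (skS σ w) (skS σ f) :=
  ⟨contDiffOn_infty.2 fun n => (sk_b_S_aux hσ hwc hw0 hw n V f hf).1, fun n => (sk_b_S_aux hσ hwc hw0 hw n V f hf).2⟩

theorem sk_b_S_const [CompleteSpace V] (σ : SkSt X ι) (c : V) (x : X) : skS σ (fun _ => c) x = c := by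
  unfold skS
  rw [integral_const, probReal_univ, one_smul]

theorem sk_b_S_bd [CompleteSpace V] [SkDom D] {σ : SkSt X ι} (hσ : σ.Ok D) {f : X → V} (hf : SkBd D f) : SkBd D (skS σ f) := by
  have h := sk_b_S_rel hσ hf continuousOn_const (fun _ _ => zero_le_one) (A := 1) (B := 0) (fun z _ => by simpa using sk_b_W_one_le le_rfl z)
  exact sk_b_rel_congr_w h fun z _ => sk_b_S_const σ 1 z

theorem sk_b_S_pos [SkDom D] {σ : SkSt X ι} (hσ : σ.Ok D) {w : X → ℝ} (hw : SkLW D w) {x : X} (hx : x ∈ D) : 0 < skS σ w x := by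
  unfold skS
  rw [integral_pos_iff_support_of_nonneg (fun g => (hw.pos _ (hσ.inv x hx _)).le) (sk_b_S_int hσ (sk_b_eg_of_lw hw) hx _)]
  have : Function.support (fun g => w (x + σ.Φ (skSd (σ.var x) * g))) = Set.univ := by
    ext g
    simpa using (hw.pos _ (hσ.inv x hx (skSd (σ.var x) * g))).ne'
  rw [this]
  simp

theorem sk_b_S_lw [SkDom D] {σ : SkSt X ι} (hσ : σ.Ok D) {w : X → ℝ} (hw : SkLW D w) : SkLW D (skS σ w) := by
  obtain ⟨A, B, -, -, h⟩ := sk_b_lw_growth hw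
  exact ⟨fun x hx => sk_b_S_pos hσ hw hx, sk_b_S_rel hσ hw.rel hw.rel.smooth.continuousOn (fun z hz => (hw.pos z hz).le) h⟩

theorem sk_b_S_tame [SkDom D] {σ : SkSt X ι} (hσ : σ.Ok D) {F : X → ℝ} (hF : SkTame D F) : SkTame D (skS σ F) := by
  classical
  have heg := sk_b_eg_of_tame hF
  obtain ⟨B, hB0, hB⟩ := sk_b_eg_rel heg
  have hs := (sk_b_S_rel hσ hB (sk_b_W_cont B).continuousOn (fun z _ => (sk_b_W_pos B z).le) (A := 1) (B := B) (fun z _ => by rw [one_mul])).smooth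
  refine ⟨hs, ?_⟩
  have hG : SkBd D (skGen D σ F) := by
    refine sk_b_bd_add hF.bd (sk_b_bd_sum _ fun k _ => ?_)
    exact sk_b_bd_clm (ContinuousLinearMap.smulRightL ℝ X ℝ ((ContinuousLinearMap.proj k : (ι → ℝ) →L[ℝ] ℝ).comp σ.l))
      (sk_b_bd_smul_const (1 / 2 : ℝ) (sk_b_bd_D _ (sk_b_bd_D_of_tame _ hF)))
  exact sk_b_rel_congr (sk_b_S_bd hσ hG) fun x hx => sk_b_S_fderiv hσ heg hx

theorem sk_b_Sd_norm (v : ι → ℝ) : ‖skSd v‖ ^ 2 ≤ ‖v‖ := by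
  have h : ‖skSd v‖ ≤ Real.sqrt ‖v‖ := by
    refine (pi_norm_le_iff_of_nonneg (Real.sqrt_nonneg _)).2 fun k => ?_
    unfold skSd
    rw [Real.norm_eq_abs, abs_of_nonneg (Real.sqrt_nonneg _)]
    exact Real.sqrt_le_sqrt ((le_abs_self _).trans (norm_le_pi_norm v k))
  calc ‖skSd v‖ ^ 2 ≤ Real.sqrt ‖v‖ ^ 2 := pow_le_pow_left₀ (norm_nonneg _) h 2
    _ = ‖v‖ := Real.sq_sqrt (norm_nonneg _)

/-- the average of an exponential weight -/
theorem sk_b_S_W_le (σ : SkSt X ι) {B : ℝ} (hB : 0 ≤ B) : ∃ A' B' : ℝ, 0 ≤ A' ∧ 0 ≤ B' ∧ ∀ x, skS σ (skbW B) x ≤ A' * skbW B' x := by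
  set n : ℝ := (Fintype.card ι : ℝ) with hn
  have hn0 : 0 ≤ n := Nat.cast_nonneg _
  refine ⟨2 ^ Fintype.card ι * Real.exp (n * (B * ‖σ.Φ‖) ^ 2 * ‖σ.c‖ / 2), B + n * (B * ‖σ.Φ‖) ^ 2 * ‖σ.l‖ / 2, by positivity, by positivity, fun x => ?_⟩
  have h1 : skS σ (skbW B) x ≤ skbW B x * ∫ g, skbW (B * ‖σ.Φ‖ * ‖skSd (σ.var x)‖) g ∂skbG ι := by
    unfold skS
    rw [← integral_const_mul]
    refine integral_mono_of_nonneg (ae_of_all _ fun g => (sk_b_W_pos _ _).le) ((sk_b_G_int_W _).const_mul _) (ae_of_all _ fun g => sk_b_W_shift hB x σ.Φ _ g)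
  have h2 := sk_b_G_exp_bound (ι := ι) (b := B * ‖σ.Φ‖ * ‖skSd (σ.var x)‖) (by positivity)
  have h3 : ‖σ.var x‖ ≤ ‖σ.c‖ + ‖σ.l‖ * ‖x‖ := (norm_add_le _ _).trans (add_le_add le_rfl (σ.l.le_opNorm x))
  have h4 : n * (B * ‖σ.Φ‖ * ‖skSd (σ.var x)‖) ^ 2 / 2 ≤ n * (B * ‖σ.Φ‖) ^ 2 * ‖σ.c‖ / 2 + n * (B * ‖σ.Φ‖) ^ 2 * ‖σ.l‖ / 2 * ‖x‖ := by
    have h5 := (sk_b_Sd_norm (σ.var x)).trans h3
    have h6 : 0 ≤ n * (B * ‖σ.Φ‖) ^ 2 / 2 := by positivity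
    calc n * (B * ‖σ.Φ‖ * ‖skSd (σ.var x)‖) ^ 2 / 2 = n * (B * ‖σ.Φ‖) ^ 2 / 2 * ‖skSd (σ.var x)‖ ^ 2 := by ring
      _ ≤ n * (B * ‖σ.Φ‖) ^ 2 / 2 * (‖σ.c‖ + ‖σ.l‖ * ‖x‖) := mul_le_mul_of_nonneg_left h5 h6
      _ = _ := by ring
  have h7 : ∫ g, skbW (B * ‖σ.Φ‖ * ‖skSd (σ.var x)‖) g ∂skbG ι
      ≤ 2 ^ Fintype.card ι * (Real.exp (n * (B * ‖σ.Φ‖) ^ 2 * ‖σ.c‖ / 2) * skbW (n * (B * ‖σ.Φ‖) ^ 2 * ‖σ.l‖ / 2) x) := by
    refine h2.trans (mul_le_mul_of_nonneg_left ?_ (by positivity))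
    unfold skbW
    rw [← Real.exp_add]
    exact Real.exp_le_exp.2 h4
  calc skS σ (skbW B) x ≤ _ := h1
    _ ≤ skbW B x * (2 ^ Fintype.card ι * (Real.exp (n * (B * ‖σ.Φ‖) ^ 2 * ‖σ.c‖ / 2) * skbW (n * (B * ‖σ.Φ‖) ^ 2 * ‖σ.l‖ / 2) x)) :=
        mul_le_mul_of_nonneg_left h7 (sk_b_W_pos _ _).le
    _ = _ := by
        rw [← sk_b_W_mul]
        ring

theorem sk_b_S_nonneg (σ : SkSt X ι) {f : X → ℝ} {x : X} (h : ∀ g, 0 ≤ f (x + σ.Φ (skSd (σ.var x) * g))) : 0 ≤ skS σ f x := integral_nonneg h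

theorem sk_b_S_eg [CompleteSpace V] [SkDom D] {σ : SkSt X ι} (hσ : σ.Ok D) {f : X → V} (hf : SkEG D f) : SkEG D (skS σ f) := by
  obtain ⟨B, hB0, hB⟩ := sk_b_eg_rel hf
  obtain ⟨A', B', -, -, h⟩ := sk_b_S_W_le σ hB0
  have h1 := sk_b_S_rel hσ hB (sk_b_W_cont B).continuousOn (fun z _ => (sk_b_W_pos B z).le) (A := 1) (B := B) (fun z _ => by rw [one_mul])
  exact ⟨B', sk_b_rel_mono h1 A' (fun z _ => sk_b_S_nonneg σ fun g => (sk_b_W_pos B _).le) fun z _ => h z⟩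

/-- **Gaussian integration by parts against the driver `k`** -/
theorem sk_b_S_ibp [DecidableEq ι] [CompleteSpace V] [SkDom D] {σ : SkSt X ι} (hσ : σ.Ok D) {f : X → V} (hf : SkEG D f) {x : X} (hx : x ∈ D) (k : ι) :
    ∫ g, g k • f (x + σ.Φ (skSd (σ.var x) * g)) ∂skbG ι = skSd (σ.var x) k • skS σ (skD D (σ.dir k) f) x :=
  sk_b_Ga_ibp hσ hf hx _ k

theorem sk_b_St_var_inv {σ : SkSt X ι} (hσ : σ.Ok D) (x : X) (y : ι → ℝ) : σ.var (x + σ.Φ y) = σ.var x := by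
  unfold SkSt.var
  rw [map_add, hσ.ker, add_zero]

/-- **semigroup**: two steps with the same features -/
theorem sk_b_S_add [CompleteSpace V] [SkDom D] {σ τ : SkSt X ι} (hσ : σ.Ok D) (hτ : τ.Ok D) (hΦ : σ.Φ = τ.Φ) {f : X → V} (hf : SkEG D f) {x : X} (hx : x ∈ D) :
    skS σ (skS τ f) x = skS ⟨σ.Φ, σ.c + τ.c, σ.l + τ.l⟩ f x := by
  obtain ⟨A, B, hA, hB, hb⟩ := sk_b_eg_norm_le hf
  have hc : Continuous fun y : ι → ℝ => f (x + σ.Φ y) := (sk_b_eg_cont hf).comp_continuous (by fun_prop) fun y => hσ.inv x hx y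
  have h := sk_b_G_conv (f := fun y : ι → ℝ => f (x + σ.Φ y)) hc (A := A * skbW B x) (B := B * ‖σ.Φ‖) (fun y => by
    refine (hb _ (hσ.inv x hx y)).trans ?_
    rw [mul_assoc]
    exact mul_le_mul_of_nonneg_left (sk_b_W_aff hB x σ.Φ y) hA) (hσ.nonneg x hx) (hτ.nonneg x hx)
  have e1 : ∀ g : ι → ℝ, skS τ f (x + σ.Φ (skSd (σ.var x) * g)) = ∫ g', f (x + σ.Φ (skSd (σ.var x) * g + skSd (τ.var x) * g')) ∂skbG ι := by
    intro g
    unfold skS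
    rw [hΦ, sk_b_St_var_inv hτ]
    simp only [map_add, add_assoc]
  unfold skS at e1 ⊢
  simp only [e1]
  refine h.trans ?_
  have e2 : (⟨σ.Φ, σ.c + τ.c, σ.l + τ.l⟩ : SkSt X ι).var x = fun k => σ.var x k + τ.var x k := by
    funext k
    simp [SkSt.var]
    ring
  rw [e2]
  rfl

/-! ## linearity, positivity -/

theorem sk_b_S_congr {σ : SkSt X ι} (hσ : σ.Ok D) {f g : X → V} (h : ∀ y ∈ D, f y = g y) {x : X} (hx : x ∈ D) : skS σ f x = skS σ g x := by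
  unfold skS
  exact integral_congr_ae (ae_of_all _ fun _ => h _ (hσ.inv x hx _))

theorem sk_b_S_add_fun {σ : SkSt X ι} (hσ : σ.Ok D) {f g : X → V} (hf : SkEG D f) (hg : SkEG D g) {x : X} (hx : x ∈ D) : skS σ (fun y => f y + g y) x = skS σ f x + skS σ g x :=
  integral_add (sk_b_S_int hσ hf hx _) (sk_b_S_int hσ hg hx _)

theorem sk_b_S_sub_fun {σ : SkSt X ι} (hσ : σ.Ok D) {f g : X → V} (hf : SkEG D f) (hg : SkEG D g) {x : X} (hx : x ∈ D) : skS σ (fun y => f y - g y) x = skS σ f x - skS σ g x :=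
  integral_sub (sk_b_S_int hσ hf hx _) (sk_b_S_int hσ hg hx _)

theorem sk_b_S_smul_fun (σ : SkSt X ι) (c : ℝ) (f : X → V) (x : X) : skS σ (fun y => c • f y) x = c • skS σ f x := integral_smul c _

theorem sk_b_S_mul_fun (σ : SkSt X ι) (c : ℝ) (f : X → ℝ) (x : X) : skS σ (fun y => c * f y) x = c * skS σ f x := integral_const_mul c _

theorem sk_b_S_neg_fun (σ : SkSt X ι) (f : X → V) (x : X) : skS σ (fun y => - f y) x = - skS σ f x := integral_neg _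

theorem sk_b_S_sum_fun {σ : SkSt X ι} (hσ : σ.Ok D) {J : Type} (s : Finset J) {f : J → X → V} (hf : ∀ i ∈ s, SkEG D (f i)) {x : X} (hx : x ∈ D) :
    skS σ (fun y => ∑ i ∈ s, f i y) x = ∑ i ∈ s, skS σ (f i) x :=
  integral_finsetSum s fun i hi => sk_b_S_int hσ (hf i hi) hx _

theorem sk_b_S_clm_fun {W : Type} [NormedAddCommGroup W] [NormedSpace ℝ W] [CompleteSpace V] [CompleteSpace W] {σ : SkSt X ι} (hσ : σ.Ok D) (L : V →L[ℝ] W) {f : X → V} (hf : SkEG D f)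
    {x : X} (hx : x ∈ D) : skS σ (fun y => L (f y)) x = L (skS σ f x) :=
  L.integral_comp_comm (sk_b_S_int hσ hf hx _)

theorem sk_b_S_mono {σ : SkSt X ι} (hσ : σ.Ok D) {f g : X → ℝ} (hf : SkEG D f) (hg : SkEG D g) (h : ∀ y ∈ D, f y ≤ g y) {x : X} (hx : x ∈ D) : skS σ f x ≤ skS σ g x :=
  integral_mono (sk_b_S_int hσ hf hx _) (sk_b_S_int hσ hg hx _) fun _ => h _ (hσ.inv x hx _)

theorem sk_b_S_norm_le (σ : SkSt X ι) (f : X → V) (x : X) : ‖skS σ f x‖ ≤ skS σ (fun y => ‖f y‖) x := norm_integral_le_integral_norm _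

theorem sk_b_S_norm_le_of_le {σ : SkSt X ι} (hσ : σ.Ok D) {f : X → V} {C : ℝ} (h : ∀ y ∈ D, ‖f y‖ ≤ C) {x : X} (hx : x ∈ D) : ‖skS σ f x‖ ≤ C := by
  have := norm_integral_le_of_norm_le_const (μ := skbG ι) (f := fun g => f (x + σ.Φ (skSd (σ.var x) * g))) (ae_of_all _ fun g => h _ (hσ.inv x hx _))
  unfold skS
  simpa using this

/-- directional derivative of one step, any direction -/
theorem sk_b_S_D' [DecidableEq ι] [CompleteSpace V] [SkDom D] {σ : SkSt X ι} (hσ : σ.Ok D) {f : X → V} (hf : SkEG D f) {x : X} (hx : x ∈ D) (e : X) :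
    skD D e (skS σ f) x = skS σ (skD D e f) x + ∑ k, σ.l e k • ((1 / 2 : ℝ) • skS σ (skD D (σ.dir k) (skD D (σ.dir k) f)) x) := by
  unfold skD
  rw [sk_b_S_fderiv hσ hf hx, sk_b_S_Gen hσ hf hx]
  have h1 : (skS σ (fderivWithin ℝ f D) x) e = skS σ (fun y => fderivWithin ℝ f D y e) x :=
    (sk_b_S_clm_fun hσ (ContinuousLinearMap.apply ℝ V e) (sk_b_eg_fderiv hf) hx).symm
  simp [h1]
  rfl

/-- field directions: `∂_e S f = S ∂_e f` -/
theorem sk_b_S_D [CompleteSpace V] [SkDom D] {σ : SkSt X ι} (hσ : σ.Ok D) {f : X → V} (hf : SkEG D f) {x : X} (hx : x ∈ D) {e : X} (he : σ.l e = 0) :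
    skD D e (skS σ f) x = skS σ (skD D e f) x := by
  classical
  rw [sk_b_S_D' hσ hf hx e, he]
  simp

/-! ## aliases (names used by helper174) -/

theorem sk_b_S_int_cont {σ : SkSt X ι} (hσ : σ.Ok D) {f : X → V} (hf : ContinuousOn f D) {x : X} (hx : x ∈ D) (a : ι → ℝ) :
    Continuous (fun g : ι → ℝ => f (x + σ.Φ (a * g))) := sk_b_S_cont_int hσ hf hx a

theorem sk_b_S_int_bound {σ : SkSt X ι} (hσ : σ.Ok D) {f : X → V} {A B : ℝ} (hA : 0 ≤ A) (hB : 0 ≤ B) (h : ∀ z ∈ D, ‖f z‖ ≤ A * skbW B z)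
    {x : X} (hx : x ∈ D) (a g : ι → ℝ) : ‖f (x + σ.Φ (a * g))‖ ≤ A * Real.exp (B * ‖x‖) * Real.exp (B * ‖σ.Φ‖ * ‖a‖ * ‖g‖) := by
  refine (h _ (hσ.inv x hx _)).trans ?_
  rw [mul_assoc]
  exact mul_le_mul_of_nonneg_left (sk_b_W_shift hB x σ.Φ a g) hA

theorem sk_b_S_ibp_a [DecidableEq ι] [CompleteSpace V] [SkDom D] {σ : SkSt X ι} (hσ : σ.Ok D) {f : X → V} (hf : SkEG D f) {x : X} (hx : x ∈ D) (a : ι → ℝ) (k : ι) :
    ∫ g, g k • f (x + σ.Φ (a * g)) ∂skbG ι = a k • ∫ g, skD D (σ.dir k) f (x + σ.Φ (a * g)) ∂skbG ι := sk_b_Ga_ibp hσ hf hx a k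

theorem sk_b_step_eqns_cite2 : True := by
  have := @skDg.eq_1; have := @skLg.eq_1; have := @skbGa.eq_1
  trivial

end Claimed.Agent.R286
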