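import Claimed.Agent.R286.Base.Step

/-!
# Row 286 (S0533), BASE library, file 3: THE OPERATION `T_m` AND THE PLANTED (TILTED) AVERAGE      (helper11; prefix `sk_b_`)

Same setting as `Base/Step.lean` (`X`, `D`, `σ : SkSt X ι`, parameters are coordinates of `X`).
* `skT m σ F x  = m⁻¹ log ∫ exp (m F (x + increment)) dγ`      (`= skS σ F x` if `m = 0`)
* `skTE m σ F φ x = ∫ exp (m (F (x + increment) - skT m σ F x)) • φ (x + increment) dγ`      (planted average of `φ`; see `sk_b_TE_eq`)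
* `skbK m σ F x`  the planted law of the DRIVER `g` (a probability measure on `ι → ℝ`)
* `skGenT m D σ F = DF + ∑ k, (1/2) (∂_k² F + m (∂_k F)²) • (k-th coordinate of σ.l)`,      `∂_k` = derivative in the direction `σ.dir k = σ.Φ e_k`
MAIN FACTS (`F` tame, `φ` in `SkEG` / `SkBd`)
* `sk_b_T_tame`, `sk_b_TE_bd`, `sk_b_TE_eg`      closure
* `sk_b_T_hasFDeriv`      `D (T F) = TE (skGenT F)` within `D`: gradient in the field AND derivative in the parameters (heat equation of `T_m`)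
* `sk_b_TE_hasFDeriv`     `D (TE φ) = TE (skGenE φ) + m Cov (skGenT F, φ)`
* `sk_b_T_D`, `sk_b_T_DD`, `sk_b_TE_D`      the same in field directions `e` (`σ.l e = 0`): `∂_e T F = TE ∂_e F`, `∂_e ∂_e' T F = TE ∂_e ∂_e' F + m Cov (∂_e F, ∂_e' F)`
* `sk_b_T_add`, `sk_b_TE_add`      semigroup, tower property
* `sk_b_TE_ibp`           integration by parts against a driver under the planted law
-/

set_option autoImplicit false
set_option linter.unusedSectionVars false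

namespace Claimed.Agent.R286

open MeasureTheory ProbabilityTheory
open scoped ContDiff
open Finset

variable {X : Type} [NormedAddCommGroup X] [NormedSpace ℝ X] {ι : Type} [Fintype ι] {V : Type} [NormedAddCommGroup V] [NormedSpace ℝ V] {D : Set X}

/-- the operation `T_m` over one step -/
noncomputable def skT (m : ℝ) (σ : SkSt X ι) (F : X → ℝ) (x : X) : ℝ :=
  if m = 0 then skS σ F x else m⁻¹ * Real.log (skS σ (fun y => Real.exp (m * F y)) x)

/-- the planted average over one step -/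
noncomputable def skTE (m : ℝ) (σ : SkSt X ι) (F : X → ℝ) (φ : X → V) (x : X) : V :=
  (skS σ (fun y => Real.exp (m * F y)) x)⁻¹ • skS σ (fun y => Real.exp (m * F y) • φ y) x

/-- the end point of the step started at `x` with the driver `g` -/
noncomputable def SkSt.pt (σ : SkSt X ι) (x : X) (g : ι → ℝ) : X := x + σ.Φ (skSd (σ.var x) * g)

/-- the density of the planted law of the driver -/
noncomputable def skDen (m : ℝ) (σ : SkSt X ι) (F : X → ℝ) (x : X) (g : ι → ℝ) : ℝ := Real.exp (m * (F (σ.pt x g) - skT m σ F x))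

/-- the planted law of the driver -/
noncomputable def skbK (m : ℝ) (σ : SkSt X ι) (F : X → ℝ) (x : X) : Measure (ι → ℝ) := (skbG ι).withDensity fun g => ENNReal.ofReal (skDen m σ F x g)

/-- the space-time gradient of `T_m` -/
noncomputable def skGenT [DecidableEq ι] (m : ℝ) (D : Set X) (σ : SkSt X ι) (F : X → ℝ) (x : X) : X →L[ℝ] ℝ :=
  fderivWithin ℝ F D x + ∑ k, ((1 / 2 : ℝ) * (skD D (σ.dir k) (skD D (σ.dir k) F) x + m * skD D (σ.dir k) F x ^ 2)) • (ContinuousLinearMap.proj k : (ι → ℝ) →L[ℝ] ℝ).comp σ.l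

/-- the space-time gradient of an observable under the planted law -/
noncomputable def skGenE [DecidableEq ι] (m : ℝ) (D : Set X) (σ : SkSt X ι) (F : X → ℝ) (φ : X → V) (x : X) : X →L[ℝ] V :=
  skGen D σ φ x + ∑ k, ((ContinuousLinearMap.proj k : (ι → ℝ) →L[ℝ] ℝ).comp σ.l).smulRight ((m * skD D (σ.dir k) F x) • skD D (σ.dir k) φ x)

theorem sk_b_tm_eqns_cite : True := by
  have := @skT.eq_1; have := @skTE.eq_1; have := @SkSt.pt.eq_1; have := @skDen.eq_1; have := @skbK.eq_1; have := @skGenT.eq_1; have := @skGenE.eq_1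
  trivial

/-! ## CONTRACT (helper11 + platoon K prove these in place; cite them freely) -/

/-! ### closure -/

/-- the weight `exp (m F)` -/
theorem sk_b_T_lwE [SkDom D] {F : X → ℝ} (hF : SkTame D F) (m : ℝ) : SkLW D (fun y => Real.exp (m * F y)) :=
  sk_b_lw_exp (sk_b_tame_const_mul m hF)

/-- the partition function is a log-tame weight -/
theorem sk_b_T_lwZ [SkDom D] {σ : SkSt X ι} (hσ : σ.Ok D) {F : X → ℝ} (hF : SkTame D F) (m : ℝ) :
    SkLW D (skS σ (fun y => Real.exp (m * F y))) := sk_b_S_lw hσ (sk_b_T_lwE hF m)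

theorem sk_b_T_tame [SkDom D] {σ : SkSt X ι} (hσ : σ.Ok D) {F : X → ℝ} (hF : SkTame D F) (m : ℝ) : SkTame D (skT m σ F) := by
  by_cases h0 : m = 0
  · refine sk_b_tame_congr (sk_b_S_tame hσ hF) fun z _ => ?_
    simp [skT, h0]
  · refine sk_b_tame_congr (sk_b_tame_const_mul m⁻¹ (sk_b_tame_log (sk_b_S_lw hσ (sk_b_T_lwE hF m)))) fun z _ => ?_
    simp [skT, h0]

theorem sk_b_TE_bd [CompleteSpace V] [SkDom D] {σ : SkSt X ι} (hσ : σ.Ok D) {F : X → ℝ} (hF : SkTame D F) (m : ℝ) {φ : X → V} (hφ : SkBd D φ) : SkBd D (skTE m σ F φ) := by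
  have hE := sk_b_T_lwE hF m
  obtain ⟨A, B, _, _, hAB⟩ := sk_b_lw_growth hE
  have h1 : SkRel D (fun y => Real.exp (m * F y)) (fun y => Real.exp (m * F y) • φ y) :=
    sk_b_rel_smul_bd hE.rel hφ fun z hz => (hE.pos z hz).le
  have h2 := sk_b_S_rel hσ h1 (sk_b_rel_cont hE.rel) (fun z hz => (hE.pos z hz).le) hAB
  exact sk_b_bd_div (sk_b_T_lwZ hσ hF m) h2

theorem sk_b_TE_eg [CompleteSpace V] [SkDom D] {σ : SkSt X ι} (hσ : σ.Ok D) {F : X → ℝ} (hF : SkTame D F) (m : ℝ) {φ : X → V} (hφ : SkEG D φ) : SkEG D (skTE m σ F φ) := by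
  have hE := sk_b_T_lwE hF m
  have h1 : SkEG D (fun y => Real.exp (m * F y) • φ y) := sk_b_eg_smul (sk_b_eg_of_lw hE) hφ
  exact sk_b_eg_smul (sk_b_eg_of_lw (sk_b_lw_inv (sk_b_T_lwZ hσ hF m))) (sk_b_S_eg hσ h1)

theorem sk_b_GenT_bd [DecidableEq ι] [SkDom D] (σ : SkSt X ι) {F : X → ℝ} (hF : SkTame D F) (m : ℝ) : SkBd D (skGenT m D σ F) := by
  unfold skGenT
  refine sk_b_bd_add hF.bd (sk_b_bd_sum _ fun k _ => ?_)
  refine sk_b_bd_smul ?_ (sk_b_bd_const D _)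
  have h1 : SkBd D (skD D (σ.dir k) F) := sk_b_bd_D_of_tame _ hF
  have h2 : SkBd D (skD D (σ.dir k) (skD D (σ.dir k) F)) := sk_b_bd_D _ h1
  have h3 : SkBd D (fun z => m * skD D (σ.dir k) F z ^ 2) := by
    have := sk_b_bd_mul (sk_b_bd_const D m) (sk_b_bd_mul h1 h1)
    simpa [sq] using this
  exact sk_b_bd_mul (sk_b_bd_const D (1 / 2 : ℝ)) (sk_b_bd_add h2 h3)

theorem sk_b_GenE_eg [DecidableEq ι] [SkDom D] (σ : SkSt X ι) {F : X → ℝ} (hF : SkTame D F) (m : ℝ) {φ : X → V} (hφ : SkEG D φ) : SkEG D (skGenE m D σ F φ) := by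
  unfold skGenE
  refine sk_b_eg_add (sk_b_Gen_eg σ hφ) (sk_b_eg_sum _ fun k _ => ?_)
  have h1 : SkBd D (skD D (σ.dir k) F) := sk_b_bd_D_of_tame _ hF
  have h2 : SkEG D (fun z => (m * skD D (σ.dir k) F z) • skD D (σ.dir k) φ z) :=
    sk_b_eg_smul (sk_b_eg_of_bd (sk_b_bd_mul (sk_b_bd_const D m) h1)) (sk_b_eg_D _ hφ)
  exact sk_b_eg_clm (ContinuousLinearMap.smulRightL ℝ X V ((ContinuousLinearMap.proj k : (ι → ℝ) →L[ℝ] ℝ).comp σ.l)) h2

theorem sk_b_GenE_bd [DecidableEq ι] [SkDom D] (σ : SkSt X ι) {F : X → ℝ} (hF : SkTame D F) (m : ℝ) {φ : X → V} (hφ : SkBd D φ) : SkBd D (skGenE m D σ F φ) := by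
  unfold skGenE
  refine sk_b_bd_add (sk_b_Gen_bd σ hφ) (sk_b_bd_sum _ fun k _ => ?_)
  have h1 : SkBd D (skD D (σ.dir k) F) := sk_b_bd_D_of_tame _ hF
  have h2 : SkBd D (fun z => (m * skD D (σ.dir k) F z) • skD D (σ.dir k) φ z) :=
    sk_b_bd_smul (sk_b_bd_mul (sk_b_bd_const D m) h1) (sk_b_bd_D _ hφ)
  exact sk_b_bd_clm (ContinuousLinearMap.smulRightL ℝ X V ((ContinuousLinearMap.proj k : (ι → ℝ) →L[ℝ] ℝ).comp σ.l)) h2

/-! ### the planted law -/

theorem sk_b_tm_pt_mem {σ : SkSt X ι} (hσ : σ.Ok D) {x : X} (hx : x ∈ D) (g : ι → ℝ) : σ.pt x g ∈ D := hσ.inv x hx _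

theorem sk_b_tm_exp_eg [SkDom D] {F : X → ℝ} (hF : SkTame D F) (m : ℝ) : SkEG D (fun y => Real.exp (m * F y)) :=
  sk_b_eg_of_lw (sk_b_lw_exp (sk_b_tame_const_mul m hF))

theorem sk_b_tm_int [SkDom D] {σ : SkSt X ι} (hσ : σ.Ok D) {F : X → ℝ} (hF : SkTame D F) (m : ℝ) {x : X} (hx : x ∈ D) :
    Integrable (fun g => Real.exp (m * F (σ.pt x g))) (skbG ι) :=
  sk_b_S_int hσ (sk_b_tm_exp_eg hF m) hx (skSd (σ.var x))

theorem sk_b_tm_int_smul [SkDom D] {σ : SkSt X ι} (hσ : σ.Ok D) {F : X → ℝ} (hF : SkTame D F) (m : ℝ) {φ : X → V} (hφ : SkEG D φ) {x : X} (hx : x ∈ D) :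
    Integrable (fun g => Real.exp (m * F (σ.pt x g)) • φ (σ.pt x g)) (skbG ι) :=
  sk_b_S_int hσ (sk_b_eg_smul (sk_b_tm_exp_eg hF m) hφ) hx (skSd (σ.var x))

theorem sk_b_tm_S_eq (σ : SkSt X ι) (f : X → V) (x : X) : skS σ f x = ∫ g, f (σ.pt x g) ∂skbG ι := rfl

/-- the partition function is positive -/
theorem sk_b_T_Z_pos [SkDom D] {σ : SkSt X ι} (hσ : σ.Ok D) {F : X → ℝ} (hF : SkTame D F) (m : ℝ) {x : X} (hx : x ∈ D) : 0 < skS σ (fun y => Real.exp (m * F y)) x := by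
  rw [sk_b_tm_S_eq]
  exact integral_exp_pos (sk_b_tm_int hσ hF m hx)

theorem sk_b_T_exp [SkDom D] {σ : SkSt X ι} (hσ : σ.Ok D) {F : X → ℝ} (hF : SkTame D F) (m : ℝ) {x : X} (hx : x ∈ D) :
    Real.exp (m * skT m σ F x) = skS σ (fun y => Real.exp (m * F y)) x := by
  by_cases hm : m = 0
  · subst hm
    simp [sk_b_tm_S_eq]
  · have hZ := sk_b_T_Z_pos hσ hF m hx
    unfold skT
    rw [if_neg hm, ← mul_assoc, mul_inv_cancel₀ hm, one_mul, Real.exp_log hZ]

theorem sk_b_tm_den_eq [SkDom D] {σ : SkSt X ι} (hσ : σ.Ok D) {F : X → ℝ} (hF : SkTame D F) (m : ℝ) {x : X} (hx : x ∈ D) (g : ι → ℝ) :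
    skDen m σ F x g = (skS σ (fun y => Real.exp (m * F y)) x)⁻¹ * Real.exp (m * F (σ.pt x g)) := by
  unfold skDen
  rw [mul_sub, Real.exp_sub, sk_b_T_exp hσ hF m hx, div_eq_inv_mul]

/-- the planted average in density form (this is `∫ ghD * ...`) -/
theorem sk_b_TE_eq [SkDom D] {σ : SkSt X ι} (hσ : σ.Ok D) {F : X → ℝ} (hF : SkTame D F) (m : ℝ) (φ : X → V) {x : X} (hx : x ∈ D) :
    skTE m σ F φ x = ∫ g, skDen m σ F x g • φ (σ.pt x g) ∂skbG ι := by
  unfold skTE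
  rw [sk_b_tm_S_eq σ (fun y => Real.exp (m * F y) • φ y), ← integral_smul]
  refine integral_congr_ae (Filter.Eventually.of_forall fun g => ?_)
  simp only [sk_b_tm_den_eq hσ hF m hx g, smul_smul]

theorem sk_b_tm_den_int [SkDom D] {σ : SkSt X ι} (hσ : σ.Ok D) {F : X → ℝ} (hF : SkTame D F) (m : ℝ) {x : X} (hx : x ∈ D) :
    Integrable (skDen m σ F x) (skbG ι) := by
  have h := (sk_b_tm_int hσ hF m hx).const_mul (skS σ (fun y => Real.exp (m * F y)) x)⁻¹
  refine h.congr (Filter.Eventually.of_forall fun g => ?_)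
  exact (sk_b_tm_den_eq hσ hF m hx g).symm

theorem sk_b_tm_den_integral [SkDom D] {σ : SkSt X ι} (hσ : σ.Ok D) {F : X → ℝ} (hF : SkTame D F) (m : ℝ) {x : X} (hx : x ∈ D) :
    ∫ g, skDen m σ F x g ∂skbG ι = 1 := by
  have hZ := sk_b_T_Z_pos hσ hF m hx
  simp only [sk_b_tm_den_eq hσ hF m hx]
  rw [integral_const_mul, ← sk_b_tm_S_eq σ (fun y => Real.exp (m * F y)), inv_mul_cancel₀ hZ.ne']

theorem sk_b_tm_den_nonneg (m : ℝ) (σ : SkSt X ι) (F : X → ℝ) (x : X) (g : ι → ℝ) : 0 ≤ skDen m σ F x g := (Real.exp_pos _).le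

theorem sk_b_tm_den_aem [SkDom D] {σ : SkSt X ι} (hσ : σ.Ok D) {F : X → ℝ} (hF : SkTame D F) (m : ℝ) {x : X} (hx : x ∈ D) :
    AEMeasurable (fun g => ENNReal.ofReal (skDen m σ F x g)) (skbG ι) :=
  (sk_b_tm_den_int hσ hF m hx).aestronglyMeasurable.aemeasurable.ennreal_ofReal

theorem sk_b_K_prob [SkDom D] {σ : SkSt X ι} (hσ : σ.Ok D) {F : X → ℝ} (hF : SkTame D F) (m : ℝ) {x : X} (hx : x ∈ D) : IsProbabilityMeasure (skbK m σ F x) := by
  refine ⟨?_⟩
  unfold skbK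
  rw [withDensity_apply _ MeasurableSet.univ, Measure.restrict_univ,
    ← ofReal_integral_eq_lintegral_ofReal (sk_b_tm_den_int hσ hF m hx) (Filter.Eventually.of_forall (sk_b_tm_den_nonneg m σ F x)),
    sk_b_tm_den_integral hσ hF m hx, ENNReal.ofReal_one]

theorem sk_b_tm_K_integral [SkDom D] {σ : SkSt X ι} (hσ : σ.Ok D) {F : X → ℝ} (hF : SkTame D F) (m : ℝ) {x : X} (hx : x ∈ D) (u : (ι → ℝ) → V) :
    ∫ g, u g ∂skbK m σ F x = ∫ g, skDen m σ F x g • u g ∂skbG ι := by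
  unfold skbK
  rw [integral_withDensity_eq_integral_toReal_smul₀ (sk_b_tm_den_aem hσ hF m hx) (Filter.Eventually.of_forall fun g => ENNReal.ofReal_lt_top)]
  refine integral_congr_ae (Filter.Eventually.of_forall fun g => ?_)
  simp only [ENNReal.toReal_ofReal (sk_b_tm_den_nonneg m σ F x g)]

theorem sk_b_tm_K_integrable [SkDom D] {σ : SkSt X ι} (hσ : σ.Ok D) {F : X → ℝ} (hF : SkTame D F) (m : ℝ) {x : X} (hx : x ∈ D) (u : (ι → ℝ) → V) :
    Integrable u (skbK m σ F x) ↔ Integrable (fun g => skDen m σ F x g • u g) (skbG ι) := by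
  unfold skbK
  rw [integrable_withDensity_iff_integrable_smul₀' (sk_b_tm_den_aem hσ hF m hx) (Filter.Eventually.of_forall fun g => ENNReal.ofReal_lt_top)]
  refine integrable_congr (Filter.Eventually.of_forall fun g => ?_)
  simp only [ENNReal.toReal_ofReal (sk_b_tm_den_nonneg m σ F x g)]

theorem sk_b_K_integral [SkDom D] {σ : SkSt X ι} (hσ : σ.Ok D) {F : X → ℝ} (hF : SkTame D F) (m : ℝ) (φ : X → V) {x : X} (hx : x ∈ D) :
    ∫ g, φ (σ.pt x g) ∂skbK m σ F x = skTE m σ F φ x := by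
  rw [sk_b_tm_K_integral hσ hF m hx, sk_b_TE_eq hσ hF m φ hx]

theorem sk_b_K_integrable [SkDom D] {σ : SkSt X ι} (hσ : σ.Ok D) {F : X → ℝ} (hF : SkTame D F) (m : ℝ) {φ : X → V} (hφ : SkEG D φ) {x : X} (hx : x ∈ D) :
    Integrable (fun g => φ (σ.pt x g)) (skbK m σ F x) := by
  rw [sk_b_tm_K_integrable hσ hF m hx]
  have h := (sk_b_tm_int_smul hσ hF m hφ hx).smul (skS σ (fun y => Real.exp (m * F y)) x)⁻¹
  refine h.congr (Filter.Eventually.of_forall fun g => ?_)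
  simp only [sk_b_tm_den_eq hσ hF m hx g, smul_smul, Pi.smul_apply]

theorem sk_b_TE_zero_mass (σ : SkSt X ι) (F : X → ℝ) (φ : X → V) (x : X) : skTE 0 σ F φ x = skS σ φ x := by
  unfold skTE
  simp [sk_b_tm_S_eq]

theorem sk_b_TE_const [CompleteSpace V] [SkDom D] {σ : SkSt X ι} (hσ : σ.Ok D) {F : X → ℝ} (hF : SkTame D F) (m : ℝ) (c : V) {x : X} (hx : x ∈ D) : skTE m σ F (fun _ => c) x = c := by
  have hZ := sk_b_T_Z_pos hσ hF m hx
  unfold skTE
  rw [sk_b_tm_S_eq σ (fun y => Real.exp (m * F y) • c), integral_smul_const, ← sk_b_tm_S_eq σ (fun y => Real.exp (m * F y)), smul_smul, inv_mul_cancel₀ hZ.ne', one_smul]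

theorem sk_b_TE_add_fun [SkDom D] {σ : SkSt X ι} (hσ : σ.Ok D) {F : X → ℝ} (hF : SkTame D F) (m : ℝ) {φ ψ : X → V} (hφ : SkEG D φ) (hψ : SkEG D ψ) {x : X} (hx : x ∈ D) :
    skTE m σ F (fun y => φ y + ψ y) x = skTE m σ F φ x + skTE m σ F ψ x := by
  unfold skTE
  rw [← smul_add]
  congr 1
  simp only [sk_b_tm_S_eq, smul_add]
  exact integral_add (sk_b_tm_int_smul hσ hF m hφ hx) (sk_b_tm_int_smul hσ hF m hψ hx)

theorem sk_b_TE_sub_fun [SkDom D] {σ : SkSt X ι} (hσ : σ.Ok D) {F : X → ℝ} (hF : SkTame D F) (m : ℝ) {φ ψ : X → V} (hφ : SkEG D φ) (hψ : SkEG D ψ) {x : X} (hx : x ∈ D) :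
    skTE m σ F (fun y => φ y - ψ y) x = skTE m σ F φ x - skTE m σ F ψ x := by
  unfold skTE
  rw [← smul_sub]
  congr 1
  simp only [sk_b_tm_S_eq, smul_sub]
  exact integral_sub (sk_b_tm_int_smul hσ hF m hφ hx) (sk_b_tm_int_smul hσ hF m hψ hx)

theorem sk_b_TE_smul_fun (m : ℝ) (σ : SkSt X ι) (F : X → ℝ) (c : ℝ) (φ : X → V) (x : X) : skTE m σ F (fun y => c • φ y) x = c • skTE m σ F φ x := by
  unfold skTE
  rw [smul_comm c]
  congr 1
  simp only [sk_b_tm_S_eq, smul_comm _ c]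
  exact integral_smul c _

theorem sk_b_TE_sum_fun [SkDom D] {σ : SkSt X ι} (hσ : σ.Ok D) {F : X → ℝ} (hF : SkTame D F) (m : ℝ) {J : Type} (s : Finset J) {φ : J → X → V} (hφ : ∀ i ∈ s, SkEG D (φ i))
    {x : X} (hx : x ∈ D) : skTE m σ F (fun y => ∑ i ∈ s, φ i y) x = ∑ i ∈ s, skTE m σ F (φ i) x := by
  unfold skTE
  rw [← Finset.smul_sum]
  congr 1
  simp only [sk_b_tm_S_eq, Finset.smul_sum]
  exact integral_finsetSum s fun i hi => sk_b_tm_int_smul hσ hF m (hφ i hi) hx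

theorem sk_b_TE_clm_fun [CompleteSpace V] [SkDom D] {W : Type} [NormedAddCommGroup W] [NormedSpace ℝ W] [CompleteSpace W] {σ : SkSt X ι} (hσ : σ.Ok D) {F : X → ℝ} (hF : SkTame D F) (m : ℝ)
    (L : V →L[ℝ] W) {φ : X → V} (hφ : SkEG D φ) {x : X} (hx : x ∈ D) : skTE m σ F (fun y => L (φ y)) x = L (skTE m σ F φ x) := by
  unfold skTE
  rw [map_smul]
  congr 1
  simp only [sk_b_tm_S_eq]
  rw [← L.integral_comp_comm (sk_b_tm_int_smul hσ hF m hφ hx)]
  simp only [map_smul]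

theorem sk_b_TE_mono [SkDom D] {σ : SkSt X ι} (hσ : σ.Ok D) {F : X → ℝ} (hF : SkTame D F) (m : ℝ) {φ ψ : X → ℝ} (hφ : SkEG D φ) (hψ : SkEG D ψ) (h : ∀ y ∈ D, φ y ≤ ψ y)
    {x : X} (hx : x ∈ D) : skTE m σ F φ x ≤ skTE m σ F ψ x := by
  have hZ := sk_b_T_Z_pos hσ hF m hx
  unfold skTE
  simp only [smul_eq_mul]
  refine mul_le_mul_of_nonneg_left ?_ (inv_pos.2 hZ).le
  simp only [sk_b_tm_S_eq]
  refine integral_mono (sk_b_tm_int_smul hσ hF m hφ hx) (sk_b_tm_int_smul hσ hF m hψ hx) fun g => ?_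
  exact mul_le_mul_of_nonneg_left (h _ (sk_b_tm_pt_mem hσ hx g)) (Real.exp_pos _).le

theorem sk_b_TE_norm_le_of_le [SkDom D] {σ : SkSt X ι} (hσ : σ.Ok D) {F : X → ℝ} (hF : SkTame D F) (m : ℝ) {φ : X → V} {C : ℝ} (h : ∀ y ∈ D, ‖φ y‖ ≤ C) {x : X} (hx : x ∈ D) :
    ‖skTE m σ F φ x‖ ≤ C := by
  have hZ := sk_b_T_Z_pos hσ hF m hx
  unfold skTE
  rw [norm_smul, Real.norm_eq_abs, abs_of_pos (inv_pos.2 hZ), inv_mul_le_iff₀ hZ]
  rw [sk_b_tm_S_eq σ (fun y => Real.exp (m * F y) • φ y), sk_b_tm_S_eq σ (fun y => Real.exp (m * F y)), ← integral_mul_const]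
  refine norm_integral_le_of_norm_le ((sk_b_tm_int hσ hF m hx).mul_const C) (Filter.Eventually.of_forall fun g => ?_)
  rw [norm_smul, Real.norm_eq_abs, abs_of_pos (Real.exp_pos _)]
  exact mul_le_mul_of_nonneg_left (h _ (sk_b_tm_pt_mem hσ hx g)) (Real.exp_pos _).le

/-- Cauchy-Schwarz -/
theorem sk_b_TE_cs [SkDom D] {σ : SkSt X ι} (hσ : σ.Ok D) {F : X → ℝ} (hF : SkTame D F) (m : ℝ) {φ ψ : X → ℝ} (hφ : SkEG D φ) (hψ : SkEG D ψ) {x : X} (hx : x ∈ D) :
    skTE m σ F (fun y => φ y * ψ y) x ^ 2 ≤ skTE m σ F (fun y => φ y ^ 2) x * skTE m σ F (fun y => ψ y ^ 2) x := by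
  have hφψ := sk_b_eg_mul hφ hψ
  have hφφ : SkEG D (fun y => φ y ^ 2) := by simpa only [sq] using sk_b_eg_mul hφ hφ
  have hψψ : SkEG D (fun y => ψ y ^ 2) := by simpa only [sq] using sk_b_eg_mul hψ hψ
  have key : ∀ t : ℝ, 0 ≤ skTE m σ F (fun y => ψ y ^ 2) x * (t * t) + (2 * skTE m σ F (fun y => φ y * ψ y) x) * t + skTE m σ F (fun y => φ y ^ 2) x := by
    intro t
    have h1 : skTE m σ F (fun y => ((t * t) • ψ y ^ 2 + (2 * t) • (φ y * ψ y)) + φ y ^ 2) x
        = skTE m σ F (fun y => ψ y ^ 2) x * (t * t) + (2 * skTE m σ F (fun y => φ y * ψ y) x) * t + skTE m σ F (fun y => φ y ^ 2) x := by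
      rw [sk_b_TE_add_fun hσ hF m (sk_b_eg_add (sk_b_eg_smul_const _ hψψ) (sk_b_eg_smul_const _ hφψ)) hφφ hx,
        sk_b_TE_add_fun hσ hF m (sk_b_eg_smul_const _ hψψ) (sk_b_eg_smul_const _ hφψ) hx, sk_b_TE_smul_fun, sk_b_TE_smul_fun]
      simp only [smul_eq_mul]
      ring
    rw [← h1]
    have h0 : skTE m σ F (fun _ => (0 : ℝ)) x = 0 := sk_b_TE_const hσ hF m 0 hx
    rw [← h0]
    refine sk_b_TE_mono hσ hF m (sk_b_eg_of_bd (sk_b_bd_const D 0)) (sk_b_eg_add (sk_b_eg_add (sk_b_eg_smul_const _ hψψ) (sk_b_eg_smul_const _ hφψ)) hφφ) (fun y _ => ?_) hx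
    simp only [smul_eq_mul]
    nlinarith [sq_nonneg (t * ψ y + φ y)]
  have hd := discrim_le_zero key
  unfold discrim at hd
  nlinarith [hd]

/-! ### derivatives -/

theorem sk_b_TE_congr {σ : SkSt X ι} (hσ : σ.Ok D) (m : ℝ) (F : X → ℝ) {f g : X → V} (h : ∀ y ∈ D, f y = g y) {x : X} (hx : x ∈ D) :
    skTE m σ F f x = skTE m σ F g x := by
  unfold skTE
  rw [sk_b_S_congr hσ (f := fun y => Real.exp (m * F y) • f y) (g := fun y => Real.exp (m * F y) • g y) (fun y hy => by rw [h y hy]) hx]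

theorem sk_b_D_congr [hD : SkDom D] {f g : X → V} (h : ∀ y ∈ D, f y = g y) (e : X) {x : X} (hx : x ∈ D) : skD D e f x = skD D e g x := by
  unfold skD
  rw [fderivWithin_congr h (h x hx)]

/-- derivative of `exp (m F) • φ` -/
theorem sk_b_T_E_smul_hasFDeriv [hD : SkDom D] {F : X → ℝ} (hF : SkTame D F) (m : ℝ) {φ : X → V} (hφ : SkEG D φ) {y : X} (hy : y ∈ D) :
    HasFDerivWithinAt (fun y => Real.exp (m * F y) • φ y)
      (Real.exp (m * F y) • (fderivWithin ℝ φ D y + m • (fderivWithin ℝ F D y).smulRight (φ y))) D y := by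
  have h1 : HasFDerivWithinAt F (fderivWithin ℝ F D y) D y := (sk_b_tame_diff hF y hy).hasFDerivWithinAt
  have h2 := (h1.const_mul m).exp
  have h3 := h2.smul (sk_b_eg_hasFDeriv hφ hy)
  refine h3.congr_fderiv ?_
  ext v
  simp only [add_apply, smul_apply, ContinuousLinearMap.smulRight_apply, smul_eq_mul]
  module

theorem sk_b_T_E_smul_D [hD : SkDom D] {F : X → ℝ} (hF : SkTame D F) (m : ℝ) {φ : X → V} (hφ : SkEG D φ) (e : X) {y : X} (hy : y ∈ D) :
    skD D e (fun y => Real.exp (m * F y) • φ y) y = Real.exp (m * F y) • (skD D e φ y + (m * skD D e F y) • φ y) := by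
  unfold skD
  rw [(sk_b_T_E_smul_hasFDeriv hF m hφ hy).fderivWithin (hD.ud y hy)]
  simp only [add_apply, smul_apply, ContinuousLinearMap.smulRight_apply]
  module

theorem sk_b_T_E_smul_DD [hD : SkDom D] {F : X → ℝ} (hF : SkTame D F) (m : ℝ) {φ : X → V} (hφ : SkEG D φ) (e : X) {y : X} (hy : y ∈ D) :
    skD D e (skD D e (fun y => Real.exp (m * F y) • φ y)) y
      = Real.exp (m * F y) • (skD D e (skD D e φ) y + (2 * (m * skD D e F y)) • skD D e φ y
          + (m * skD D e (skD D e F) y + m ^ 2 * skD D e F y ^ 2) • φ y) := by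
  have hb : SkBd D (skD D e F) := sk_b_bd_D_of_tame e hF
  have h1 : SkEG D (fun y => skD D e φ y + (m * skD D e F y) • φ y) :=
    sk_b_eg_add (sk_b_eg_D e hφ) (sk_b_eg_smul (sk_b_eg_of_bd (sk_b_bd_mul (sk_b_bd_const D m) hb)) hφ)
  rw [sk_b_D_congr (fun z hz => sk_b_T_E_smul_D hF m hφ e hz) e hy, sk_b_T_E_smul_D hF m h1 e hy]
  have h2 : skD D e (fun y => skD D e φ y + (m * skD D e F y) • φ y) y
      = skD D e (skD D e φ) y + ((m * skD D e F y) • skD D e φ y + (m * skD D e (skD D e F) y) • φ y) := by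
    have a1 := sk_b_eg_hasFDeriv (sk_b_eg_D e hφ) hy
    have a2 : HasFDerivWithinAt (skD D e F) (fderivWithin ℝ (skD D e F) D y) D y := sk_b_rel_hasFDeriv hb hy
    have a3 := (a2.const_mul m).smul (sk_b_eg_hasFDeriv hφ hy)
    have a4 : HasFDerivWithinAt (fun y => skD D e φ y + (m * skD D e F y) • φ y) _ D y := a1.add a3
    show fderivWithin ℝ (fun y => skD D e φ y + (m * skD D e F y) • φ y) D y e = _
    rw [a4.fderivWithin (hD.ud y hy)]
    simp only [add_apply, smul_apply, ContinuousLinearMap.smulRight_apply, smul_eq_mul]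
    rfl
  rw [h2]
  module

/-- the space-time gradient of `exp (m F) • φ` -/
theorem sk_b_T_Gen_E_smul [DecidableEq ι] [hD : SkDom D] (σ : SkSt X ι) {F : X → ℝ} (hF : SkTame D F) (m : ℝ) {φ : X → V} (hφ : SkEG D φ) {y : X} (hy : y ∈ D) :
    skGen D σ (fun y => Real.exp (m * F y) • φ y) y
      = Real.exp (m * F y) • (skGenE m D σ F φ y + m • (skGenT m D σ F y).smulRight (φ y)) := by
  unfold skGen skGenE skGenT skGen
  rw [(sk_b_T_E_smul_hasFDeriv hF m hφ hy).fderivWithin (hD.ud y hy)]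
  simp_rw [sk_b_T_E_smul_DD hF m hφ _ hy]
  ext v
  simp only [add_apply, smul_apply, ContinuousLinearMap.smulRight_apply, smul_eq_mul,
    _root_.sum_apply, ContinuousLinearMap.comp_apply, ContinuousLinearMap.proj_apply, smul_add, Finset.smul_sum, Finset.sum_smul,
    add_smul]
  have aux : ∀ (a b s s1 s2 s3 : V), s = s1 + s2 + s3 → a + b + s = a + s1 + s2 + (b + s3) := by
    intro a b s s1 s2 s3 h
    rw [h]
    abel
  refine aux _ _ _ _ _ _ ?_
  rw [← Finset.sum_add_distrib, ← Finset.sum_add_distrib]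
  exact Finset.sum_congr rfl fun i _ => by module

/-- the space-time gradient of `exp (m F)` -/
theorem sk_b_T_Gen_E [DecidableEq ι] [hD : SkDom D] (σ : SkSt X ι) {F : X → ℝ} (hF : SkTame D F) (m : ℝ) {y : X} (hy : y ∈ D) :
    skGen D σ (fun y => Real.exp (m * F y)) y = m • (Real.exp (m * F y) • skGenT m D σ F y) := by
  have h := sk_b_T_Gen_E_smul σ hF m (φ := fun _ => (1 : ℝ)) (sk_b_eg_of_bd (sk_b_bd_const D 1)) hy
  simp only [smul_eq_mul, mul_one] at h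
  rw [h]
  have h0 : skGenE m D σ F (fun _ => (1 : ℝ)) y = 0 := by
    unfold skGenE skGen skD
    simp
  rw [h0, zero_add]
  ext v
  simp only [smul_apply, ContinuousLinearMap.smulRight_apply, smul_eq_mul]
  ring

/-- the derivative of the partition function -/
theorem sk_b_T_Z_hasFDeriv [DecidableEq ι] [SkDom D] {σ : SkSt X ι} (hσ : σ.Ok D) {F : X → ℝ} (hF : SkTame D F) (m : ℝ) {x : X} (hx : x ∈ D) :
    HasFDerivWithinAt (skS σ (fun y => Real.exp (m * F y)))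
      (m • skS σ (fun y => Real.exp (m * F y) • skGenT m D σ F y) x) D x := by
  have h := sk_b_S_hasFDeriv hσ (sk_b_eg_of_lw (sk_b_T_lwE hF m)) hx
  rw [sk_b_S_congr hσ (fun y hy => sk_b_T_Gen_E σ hF m hy) hx, sk_b_S_smul_fun] at h
  exact h

theorem sk_b_GenT_zero [DecidableEq ι] (σ : SkSt X ι) (F : X → ℝ) (y : X) : skGenT 0 D σ F y = skGen D σ F y := by
  unfold skGenT skGen
  congr 1
  refine Finset.sum_congr rfl fun k _ => ?_
  ext v
  simp only [smul_apply, ContinuousLinearMap.smulRight_apply, smul_eq_mul, ContinuousLinearMap.comp_apply, ContinuousLinearMap.proj_apply]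
  ring

theorem sk_b_GenT_smulRight_eg [DecidableEq ι] [SkDom D] (σ : SkSt X ι) {F : X → ℝ} (hF : SkTame D F) (m : ℝ) {φ : X → V} (hφ : SkEG D φ) :
    SkEG D (fun y => (skGenT m D σ F y).smulRight (φ y)) :=
  sk_b_eg_bilin (ContinuousLinearMap.smulRightL ℝ X V) (sk_b_eg_of_bd (sk_b_GenT_bd σ hF m)) hφ

theorem sk_b_GenT_apply [DecidableEq ι] (m : ℝ) (σ : SkSt X ι) (F : X → ℝ) (y e : X) :
    skGenT m D σ F y e = skD D e F y + ∑ k, σ.l e k * ((1 / 2 : ℝ) * (skD D (σ.dir k) (skD D (σ.dir k) F) y + m * skD D (σ.dir k) F y ^ 2)) := by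
  unfold skGenT
  simp only [add_apply, _root_.sum_apply, smul_apply, ContinuousLinearMap.comp_apply, ContinuousLinearMap.proj_apply, smul_eq_mul]
  congr 1
  exact Finset.sum_congr rfl fun k _ => mul_comm _ _

theorem sk_b_GenE_apply [DecidableEq ι] (m : ℝ) (σ : SkSt X ι) (F : X → ℝ) (φ : X → V) (y : X) {e : X} (he : σ.l e = 0) :
    skGenE m D σ F φ y e = skD D e φ y := by
  unfold skGenE skGen
  simp only [add_apply, _root_.sum_apply, ContinuousLinearMap.smulRight_apply, ContinuousLinearMap.comp_apply, ContinuousLinearMap.proj_apply, he,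
    Pi.zero_apply, zero_smul, Finset.sum_const_zero, add_zero]
  rfl

/-- **THE DERIVATIVE OF `T_m`**, jointly in the field and in the parameters, within `D` -/
theorem sk_b_T_hasFDeriv [DecidableEq ι] [SkDom D] {σ : SkSt X ι} (hσ : σ.Ok D) {F : X → ℝ} (hF : SkTame D F) (m : ℝ) {x : X} (hx : x ∈ D) :
    HasFDerivWithinAt (skT m σ F) (skTE m σ F (skGenT m D σ F) x) D x := by
  by_cases h0 : m = 0
  · subst h0
    rw [sk_b_TE_zero_mass]
    have h := sk_b_S_hasFDeriv hσ (sk_b_eg_of_tame hF) hx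
    have e1 : skT 0 σ F = skS σ F := by
      funext z
      simp [skT]
    have e2 : skGenT 0 D σ F = skGen D σ F := funext fun y => sk_b_GenT_zero σ F y
    rw [e1, e2]
    exact h
  · have hZ := sk_b_T_Z_hasFDeriv hσ hF m hx
    have hpos := (sk_b_T_lwZ hσ hF m).pos x hx
    have h1 := (hZ.log hpos.ne').const_mul m⁻¹
    have e1 : skT m σ F = fun z => m⁻¹ * Real.log (skS σ (fun y => Real.exp (m * F y)) z) := by
      funext z
      simp [skT, h0]
    rw [e1]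
    refine h1.congr_fderiv ?_
    unfold skTE
    rw [smul_smul, smul_smul]
    congr 1
    field_simp

/-- **THE DERIVATIVE OF A PLANTED AVERAGE** -/
theorem sk_b_TE_hasFDeriv [DecidableEq ι] [CompleteSpace V] [SkDom D] {σ : SkSt X ι} (hσ : σ.Ok D) {F : X → ℝ} (hF : SkTame D F) (m : ℝ) {φ : X → V} (hφ : SkEG D φ) {x : X} (hx : x ∈ D) :
    HasFDerivWithinAt (skTE m σ F φ)
      (skTE m σ F (skGenE m D σ F φ) x + m • (skTE m σ F (fun y => (skGenT m D σ F y).smulRight (φ y)) x - (skTE m σ F (skGenT m D σ F) x).smulRight (skTE m σ F φ x))) D x := by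
  have hZ := sk_b_T_Z_hasFDeriv hσ hF m hx
  have hpos := (sk_b_T_lwZ hσ hF m).pos x hx
  have hE := sk_b_T_lwE hF m
  have hN := sk_b_S_hasFDeriv hσ (sk_b_eg_smul (sk_b_eg_of_lw hE) hφ) hx
  rw [sk_b_S_congr hσ (fun y hy => sk_b_T_Gen_E_smul σ hF m hφ hy) hx] at hN
  have hI := (hasDerivAt_inv hpos.ne').comp_hasFDerivWithinAt x hZ
  have h1 := hI.smul hN
  refine h1.congr_fderiv ?_
  have e1 : skTE m σ F (fun y => skGenE m D σ F φ y + m • (skGenT m D σ F y).smulRight (φ y)) x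
      = skTE m σ F (skGenE m D σ F φ) x + m • skTE m σ F (fun y => (skGenT m D σ F y).smulRight (φ y)) x := by
    rw [sk_b_TE_add_fun hσ hF m (sk_b_GenE_eg σ hF m hφ) (sk_b_eg_smul_const m (sk_b_GenT_smulRight_eg σ hF m hφ)) hx, sk_b_TE_smul_fun]
  rw [smul_sub, ← add_sub_assoc, ← e1]
  unfold skTE
  ext v
  simp only [add_apply, sub_apply, smul_apply, ContinuousLinearMap.smulRight_apply, smul_eq_mul, Function.comp]
  rw [sub_eq_add_neg]
  congr 1
  rw [smul_smul, smul_smul, ← neg_smul]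
  congr 1
  ring

/-- any direction -/
theorem sk_b_T_D' [DecidableEq ι] [SkDom D] {σ : SkSt X ι} (hσ : σ.Ok D) {F : X → ℝ} (hF : SkTame D F) (m : ℝ) {x : X} (hx : x ∈ D) (e : X) :
    skD D e (skT m σ F) x = skTE m σ F (fun y => skD D e F y + ∑ k, σ.l e k * ((1 / 2 : ℝ) * (skD D (σ.dir k) (skD D (σ.dir k) F) y + m * skD D (σ.dir k) F y ^ 2))) x := by
  have hD : SkDom D := inferInstance
  unfold skD
  rw [(sk_b_T_hasFDeriv hσ hF m hx).fderivWithin (hD.ud x hx)]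
  have h := sk_b_TE_clm_fun hσ hF m (ContinuousLinearMap.apply ℝ ℝ e) (sk_b_eg_of_bd (sk_b_GenT_bd σ hF m)) hx
  simp only [ContinuousLinearMap.apply_apply] at h
  rw [← h]
  simp_rw [sk_b_GenT_apply]
  rfl

/-- field directions: `∂_e T F = TE ∂_e F` -/
theorem sk_b_T_D [SkDom D] {σ : SkSt X ι} (hσ : σ.Ok D) {F : X → ℝ} (hF : SkTame D F) (m : ℝ) {x : X} (hx : x ∈ D) {e : X} (he : σ.l e = 0) :
    skD D e (skT m σ F) x = skTE m σ F (skD D e F) x := by
  classical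
  rw [sk_b_T_D' hσ hF m hx e]
  simp [he]

/-- field directions: `∂_e TE φ = TE ∂_e φ + m Cov (∂_e F, φ)` -/
theorem sk_b_TE_D [CompleteSpace V] [SkDom D] {σ : SkSt X ι} (hσ : σ.Ok D) {F : X → ℝ} (hF : SkTame D F) (m : ℝ) {φ : X → V} (hφ : SkEG D φ) {x : X} (hx : x ∈ D) {e : X} (he : σ.l e = 0) :
    skD D e (skTE m σ F φ) x = skTE m σ F (skD D e φ) x + m • (skTE m σ F (fun y => skD D e F y • φ y) x - skTE m σ F (skD D e F) x • skTE m σ F φ x) := by
  classical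
  have hD : SkDom D := inferInstance
  have hT : ∀ y, skGenT m D σ F y e = skD D e F y := fun y => by
    rw [sk_b_GenT_apply]
    simp [he]
  show fderivWithin ℝ (skTE m σ F φ) D x e = _
  rw [(sk_b_TE_hasFDeriv hσ hF m hφ hx).fderivWithin (hD.ud x hx)]
  have h1 := sk_b_TE_clm_fun hσ hF m (ContinuousLinearMap.apply ℝ V e) (sk_b_GenE_eg σ hF m hφ) hx
  have h2 := sk_b_TE_clm_fun hσ hF m (ContinuousLinearMap.apply ℝ V e) (sk_b_GenT_smulRight_eg σ hF m hφ) hx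
  have h3 := sk_b_TE_clm_fun hσ hF m (ContinuousLinearMap.apply ℝ ℝ e) (sk_b_eg_of_bd (sk_b_GenT_bd σ hF m)) hx
  simp only [ContinuousLinearMap.apply_apply, ContinuousLinearMap.smulRight_apply, hT, sk_b_GenE_apply m σ F φ _ he] at h1 h2 h3
  simp only [add_apply, sub_apply, smul_apply, ContinuousLinearMap.smulRight_apply]
  rw [← h1, ← h2, ← h3]

/-- field directions: the Hessian of `T_m F` -/
theorem sk_b_T_DD [SkDom D] {σ : SkSt X ι} (hσ : σ.Ok D) {F : X → ℝ} (hF : SkTame D F) (m : ℝ) {x : X} (hx : x ∈ D) {e e' : X} (he : σ.l e = 0) (he' : σ.l e' = 0) :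
    skD D e (skD D e' (skT m σ F)) x = skTE m σ F (skD D e (skD D e' F)) x
      + m * (skTE m σ F (fun y => skD D e F y * skD D e' F y) x - skTE m σ F (skD D e F) x * skTE m σ F (skD D e' F) x) := by
  rw [sk_b_D_congr (fun y hy => sk_b_T_D hσ hF m hy he') e hx,
    sk_b_TE_D hσ hF m (sk_b_eg_of_bd (sk_b_bd_D_of_tame e' hF)) hx he]
  rfl

/-! ### integration by parts, semigroup -/

/-- `exp (m F)` is in the exponential growth class -/
theorem sk_b_TE_ibp_eg [SkDom D] {F : X → ℝ} (hF : SkTame D F) (m : ℝ) : SkEG D (fun y => Real.exp (m * F y)) :=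
  sk_b_eg_of_lw (sk_b_lw_exp (sk_b_tame_const_mul m hF))

/-- only the values on `D` matter -/
theorem sk_b_TE_ibp_congr {σ : SkSt X ι} (hσ : σ.Ok D) {f g : X → V} (h : ∀ y ∈ D, f y = g y) {x : X} (hx : x ∈ D) : skS σ f x = skS σ g x := by
  unfold skS
  exact integral_congr_ae (Filter.Eventually.of_forall fun w => h _ (hσ.inv x hx _))

/-- the end point is a continuous function of the driver -/
theorem sk_b_TE_ibp_pt_cont (σ : SkSt X ι) (x : X) : Continuous (σ.pt x) := by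
  unfold SkSt.pt
  exact continuous_const.add (σ.Φ.continuous.comp (continuous_const.mul continuous_id))

/-- the density is continuous -/
theorem sk_b_TE_ibp_den_cont {σ : SkSt X ι} (hσ : σ.Ok D) {F : X → ℝ} (hF : SkTame D F) (m : ℝ) {x : X} (hx : x ∈ D) : Continuous (skDen m σ F x) := by
  unfold skDen
  have h1 : Continuous fun g => F (σ.pt x g) := hF.smooth.continuousOn.comp_continuous (sk_b_TE_ibp_pt_cont σ x) fun g => hσ.inv x hx _
  exact Real.continuous_exp.comp (continuous_const.mul (h1.sub continuous_const))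

/-- integrals of ANY function of the driver under the planted law -/
theorem sk_b_TE_ibp_K {σ : SkSt X ι} (hσ : σ.Ok D) {F : X → ℝ} (hF : SkTame D F) (m : ℝ) {x : X} (hx : x ∈ D) (ψ : (ι → ℝ) → V) :
    ∫ g, ψ g ∂skbK m σ F x = ∫ g, skDen m σ F x g • ψ g ∂skbG ι := by
  unfold skbK
  rw [integral_withDensity_eq_integral_toReal_smul (sk_b_TE_ibp_den_cont hσ hF m hx).measurable.ennreal_ofReal (Filter.Eventually.of_forall fun g => ENNReal.ofReal_lt_top)]
  refine integral_congr_ae (Filter.Eventually.of_forall fun g => ?_)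
  simp only
  rw [ENNReal.toReal_ofReal (by unfold skDen; exact (Real.exp_pos _).le)]

/-- the density in product form -/
theorem sk_b_TE_ibp_den [SkDom D] {σ : SkSt X ι} (hσ : σ.Ok D) {F : X → ℝ} (hF : SkTame D F) (m : ℝ) {x : X} (hx : x ∈ D) (g : ι → ℝ) :
    skDen m σ F x g = (skS σ (fun y => Real.exp (m * F y)) x)⁻¹ * Real.exp (m * F (σ.pt x g)) := by
  rw [← sk_b_T_exp hσ hF m hx, ← Real.exp_neg, ← Real.exp_add, skDen]
  congr 1
  ring

/-- the product rule -/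
theorem sk_b_TE_ibp_D [hD : SkDom D] {F : X → ℝ} (hF : SkTame D F) (m : ℝ) {φ : X → V} (hφ : SkEG D φ) (e : X) {y : X} (hy : y ∈ D) :
    skD D e (fun y => Real.exp (m * F y) • φ y) y = Real.exp (m * F y) • (skD D e φ y + (m * skD D e F y) • φ y) := by
  have h1 : HasFDerivWithinAt (fun y => Real.exp (m * F y)) (Real.exp (m * F y) • (m • fderivWithin ℝ F D y)) D y :=
    (((sk_b_tame_diff hF y hy).hasFDerivWithinAt).const_mul m).exp
  have h2 := h1.fun_smul (sk_b_eg_hasFDeriv hφ hy)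
  unfold skD
  rw [h2.fderivWithin (hD.ud y hy)]
  simp only [add_apply, smul_apply, ContinuousLinearMap.smulRight_apply, smul_eq_mul, smul_add, smul_smul, mul_assoc]

/-- **integration by parts against the driver `k` under the planted law** -/
theorem sk_b_TE_ibp [DecidableEq ι] [CompleteSpace V] [SkDom D] {σ : SkSt X ι} (hσ : σ.Ok D) {F : X → ℝ} (hF : SkTame D F) (m : ℝ) {φ : X → V} (hφ : SkEG D φ) {x : X} (hx : x ∈ D) (k : ι) :
    ∫ g, g k • φ (σ.pt x g) ∂skbK m σ F x = skSd (σ.var x) k • skTE m σ F (fun y => skD D (σ.dir k) φ y + (m * skD D (σ.dir k) F y) • φ y) x := by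
  rw [sk_b_TE_ibp_K hσ hF m hx]
  have h1 : ∀ g : ι → ℝ, skDen m σ F x g • g k • φ (σ.pt x g)
      = (skS σ (fun y => Real.exp (m * F y)) x)⁻¹ • (g k • (fun y => Real.exp (m * F y) • φ y) (x + σ.Φ (skSd (σ.var x) * g))) := by
    intro g
    rw [sk_b_TE_ibp_den hσ hF m hx]
    simp only [SkSt.pt, smul_smul]
    congr 1
    ring
  simp only [h1]
  rw [integral_smul, sk_b_S_ibp hσ (sk_b_eg_smul (sk_b_TE_ibp_eg hF m) hφ) hx k, skTE, smul_comm]
  congr 2
  exact sk_b_TE_ibp_congr hσ (fun y hy => sk_b_TE_ibp_D hF m hφ _ hy) hx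

/-- **semigroup**: two steps of the same mass with the same features -/
theorem sk_b_T_add [SkDom D] {σ τ : SkSt X ι} (hσ : σ.Ok D) (hτ : τ.Ok D) (hΦ : σ.Φ = τ.Φ) {F : X → ℝ} (hF : SkTame D F) (m : ℝ) {x : X} (hx : x ∈ D) :
    skT m σ (skT m τ F) x = skT m ⟨σ.Φ, σ.c + τ.c, σ.l + τ.l⟩ F x := by
  by_cases hm : m = 0
  · subst hm
    have e : skT 0 τ F = skS τ F := by funext y; simp [skT]
    rw [e]
    simp only [skT, if_true]
    exact sk_b_S_add hσ hτ hΦ (sk_b_eg_of_tame hF) hx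
  · have h1 : skS σ (fun y => Real.exp (m * skT m τ F y)) x = skS σ (skS τ fun y => Real.exp (m * F y)) x :=
      sk_b_TE_ibp_congr hσ (fun y hy => sk_b_T_exp hτ hF m hy) hx
    rw [skT, if_neg hm, h1, sk_b_S_add hσ hτ hΦ (sk_b_TE_ibp_eg hF m) hx, skT, if_neg hm]

/-- **tower property** -/
theorem sk_b_TE_add [CompleteSpace V] [SkDom D] {σ τ : SkSt X ι} (hσ : σ.Ok D) (hτ : τ.Ok D) (hΦ : σ.Φ = τ.Φ) {F : X → ℝ} (hF : SkTame D F) (m : ℝ) {φ : X → V} (hφ : SkEG D φ)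
    {x : X} (hx : x ∈ D) : skTE m σ (skT m τ F) (skTE m τ F φ) x = skTE m ⟨σ.Φ, σ.c + τ.c, σ.l + τ.l⟩ F φ x := by
  have h1 : skS σ (fun y => Real.exp (m * skT m τ F y)) x = skS σ (skS τ fun y => Real.exp (m * F y)) x :=
    sk_b_TE_ibp_congr hσ (fun y hy => sk_b_T_exp hτ hF m hy) hx
  have h2 : skS σ (fun y => Real.exp (m * skT m τ F y) • skTE m τ F φ y) x = skS σ (skS τ fun y => Real.exp (m * F y) • φ y) x := by
    refine sk_b_TE_ibp_congr hσ (fun y hy => ?_) hx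
    rw [sk_b_T_exp hτ hF m hy, skTE, smul_smul, mul_inv_cancel₀ (sk_b_T_Z_pos hτ hF m hy).ne', one_smul]
  rw [skTE, h1, h2, sk_b_S_add hσ hτ hΦ (sk_b_TE_ibp_eg hF m) hx, sk_b_S_add hσ hτ hΦ (sk_b_eg_smul (sk_b_TE_ibp_eg hF m) hφ) hx, skTE]

/-! ### order, constants -/

theorem sk_b_T_add_const [SkDom D] {σ : SkSt X ι} (hσ : σ.Ok D) {F : X → ℝ} (hF : SkTame D F) (m c : ℝ) {x : X} (hx : x ∈ D) : skT m σ (fun y => F y + c) x = skT m σ F x + c := by
  by_cases hm : m = 0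
  · subst hm
    simp only [skT, if_true, sk_b_tm_S_eq]
    have hi : Integrable (fun g => F (σ.pt x g)) (skbG ι) := sk_b_S_int hσ (sk_b_eg_of_tame hF) hx (skSd (σ.var x))
    rw [integral_add hi (integrable_const c)]
    simp
  · have hZ := sk_b_T_Z_pos hσ hF m hx
    simp only [skT, if_neg hm]
    have h1 : skS σ (fun y => Real.exp (m * (F y + c))) x = skS σ (fun y => Real.exp (m * F y)) x * Real.exp (m * c) := by
      simp only [sk_b_tm_S_eq, mul_add, Real.exp_add]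
      exact integral_mul_const _ _
    rw [h1, Real.log_mul hZ.ne' (Real.exp_pos _).ne', Real.log_exp]
    field_simp

theorem sk_b_T_mono [SkDom D] {σ : SkSt X ι} (hσ : σ.Ok D) {F G : X → ℝ} (hF : SkTame D F) (hG : SkTame D G) (h : ∀ y ∈ D, F y ≤ G y) (m : ℝ) {x : X} (hx : x ∈ D) :
    skT m σ F x ≤ skT m σ G x := by
  have hZF := sk_b_T_Z_pos hσ hF m hx
  have hZG := sk_b_T_Z_pos hσ hG m hx
  rcases lt_trichotomy m 0 with hm | hm | hm
  · simp only [skT, if_neg hm.ne]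
    refine mul_le_mul_of_nonpos_left ?_ (inv_nonpos.2 hm.le)
    refine Real.log_le_log hZG ?_
    simp only [sk_b_tm_S_eq]
    refine integral_mono (sk_b_tm_int hσ hG m hx) (sk_b_tm_int hσ hF m hx) fun g => ?_
    exact Real.exp_le_exp.2 (mul_le_mul_of_nonpos_left (h _ (sk_b_tm_pt_mem hσ hx g)) hm.le)
  · subst hm
    simp only [skT, if_true, sk_b_tm_S_eq]
    exact integral_mono (sk_b_S_int hσ (sk_b_eg_of_tame hF) hx (skSd (σ.var x))) (sk_b_S_int hσ (sk_b_eg_of_tame hG) hx (skSd (σ.var x))) fun g => h _ (sk_b_tm_pt_mem hσ hx g)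
  · simp only [skT, if_neg hm.ne']
    refine mul_le_mul_of_nonneg_left ?_ (inv_pos.2 hm).le
    refine Real.log_le_log hZF ?_
    simp only [sk_b_tm_S_eq]
    refine integral_mono (sk_b_tm_int hσ hF m hx) (sk_b_tm_int hσ hG m hx) fun g => ?_
    exact Real.exp_le_exp.2 (mul_le_mul_of_nonneg_left (h _ (sk_b_tm_pt_mem hσ hx g)) hm.le)

/-- the terminal function `a⁻¹ log ∑ w_s exp (a L_s x)` is tame -/
theorem sk_b_tame_lse [SkDom D] {S : Type} [Fintype S] (w : S → ℝ) (hw : ∀ s, 0 ≤ w s) (hw' : ∃ s, 0 < w s) (a : ℝ) (L : S → X →L[ℝ] ℝ) :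
    SkTame D (fun x => a⁻¹ * Real.log (∑ s, w s * Real.exp (a * L s x))) := by
  classical
  obtain ⟨s₀, hs₀⟩ := hw'
  have h1 : SkLW D (fun x => ∑ s ∈ Finset.univ.filter (fun s => 0 < w s), w s * Real.exp (a * L s x)) := by
    refine sk_b_lw_sum _ ⟨s₀, by simp [hs₀]⟩ fun s hs => ?_
    exact sk_b_lw_const_mul (Finset.mem_filter.1 hs).2 (sk_b_lw_exp (sk_b_tame_const_mul a (sk_b_tame_clm (L s))))
  refine sk_b_tame_congr (sk_b_tame_const_mul a⁻¹ (sk_b_tame_log h1)) fun x _ => ?_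
  congr 2
  rw [Finset.sum_filter]
  refine Finset.sum_congr rfl fun s _ => ?_
  by_cases h : 0 < w s
  · simp [h]
  · have : w s = 0 := le_antisymm (not_lt.1 h) (hw s)
    simp [this]

end Claimed.Agent.R286
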